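import Mathlib

/-! Three general lemmas.
`poly_thick`: prove by induction on `D`: for every `η > 0` there is `C` such that a polynomial
`P` with `P.natDegree ≤ D` and `|P s| ≤ A` on `E` has all coefficients bounded by `C * A`
(pick `s₀ ∈ E`, write `P = (X - s₀) * Q + P s₀`, and use `E \ Ioo (s₀ - η/4) (s₀ + η/4)`).
`lin_vol`: `mul_le_addHaar_image_of_lt_det` for the identity, applied to `A⁻¹ ∘ f`, where
`A t = ∑ t i • W i`; `‖A⁻¹ v‖ ≤ C ‖v‖` by Cramer and `Matrix.det_le`.
`pigeon`: finite cover of the closed ball of radius `R` by balls of radius `ε / 2`. -/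

namespace Vale.Agent.P188
open MeasureTheory

theorem sgen_nonempty {η : ℝ} (hη : 0 < η) {E : Set ℝ} (hv : ENNReal.ofReal η ≤ volume E) :
    E.Nonempty := by
  refine nonempty_of_measure_ne_zero (μ := volume) fun h => ?_
  rw [h, nonpos_iff_eq_zero, ENNReal.ofReal_eq_zero] at hv
  linarith

theorem sgen_coeff (D : ℕ) : ∀ η : ℝ, 0 < η → ∃ C : ℝ, 0 ≤ C ∧
    ∀ (P : Polynomial ℝ) (E : Set ℝ) (A : ℝ), P.natDegree ≤ D → E ⊆ Set.Icc (-1) 1 →
      ENNReal.ofReal η ≤ volume E → (∀ s ∈ E, |P.eval s| ≤ A) → ∀ k, |P.coeff k| ≤ C * A := by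
  induction D with
  | zero =>
    refine fun η hη => ⟨1, zero_le_one, fun P E A hP _ hv hA k => ?_⟩
    obtain ⟨s₀, hs₀⟩ := sgen_nonempty hη hv
    have h1 := hA s₀ hs₀
    rw [Polynomial.eq_C_of_natDegree_le_zero hP] at h1 ⊢
    rw [Polynomial.eval_C] at h1
    rw [Polynomial.coeff_C, one_mul]
    split_ifs
    · exact h1
    · exact abs_zero.trans_le ((abs_nonneg _).trans h1)
  | succ D ih =>
    intro η hη
    obtain ⟨C, hC0, hC⟩ := ih (η / 2) (half_pos hη)
    refine ⟨2 * (C * (8 / η)) + 1, by positivity, fun P E A hP hE hv hA k => ?_⟩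
    obtain ⟨s₀, hs₀⟩ := sgen_nonempty hη hv
    have hA0 : 0 ≤ A := (abs_nonneg _).trans (hA s₀ hs₀)
    have h1 := Polynomial.modByMonic_add_div P (Polynomial.X - Polynomial.C s₀)
    rw [Polynomial.modByMonic_X_sub_C_eq_C_eval] at h1
    have h2 := Polynomial.natDegree_divByMonic P (Polynomial.monic_X_sub_C s₀)
    rw [Polynomial.natDegree_X_sub_C] at h2
    set Q := P /ₘ (Polynomial.X - Polynomial.C s₀)
    have h3 : ENNReal.ofReal (η / 2) ≤ volume (E \ Set.Ioo (s₀ - η / 4) (s₀ + η / 4)) := by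
      refine le_trans ?_ le_measure_sdiff
      rw [Real.volume_Ioo]
      refine le_trans ?_ (tsub_le_tsub_right hv _)
      rw [← ENNReal.ofReal_sub _ (by linarith)]
      exact ENNReal.ofReal_le_ofReal (by linarith)
    have h4 := hC Q _ (8 / η * A) (by omega) (Set.sdiff_subset.trans hE) h3 (fun s hs => by
      have h5 : η / 4 ≤ |s - s₀| := by
        by_contra h
        rw [not_le, abs_lt] at h
        exact hs.2 ⟨by linarith [h.1], by linarith [h.2]⟩
      have h6 := congrArg (Polynomial.eval s) h1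
      simp only [Polynomial.eval_add, Polynomial.eval_C, Polynomial.eval_mul, Polynomial.eval_sub,
        Polynomial.eval_X] at h6
      have h7 := abs_sub (P.eval s) (P.eval s₀)
      rw [← h6, add_sub_cancel_left, abs_mul, h6] at h7
      have h8 := mul_le_mul_of_nonneg_right h5 (abs_nonneg (Q.eval s))
      rw [div_mul_eq_mul_div, le_div_iff₀ hη]
      linarith [hA s hs.1, hA s₀ hs₀])
    have h9 : |s₀| ≤ 1 := abs_le.2 (hE hs₀)
    have h10 : ∀ j, |s₀ * Q.coeff j| ≤ C * (8 / η * A) := fun j => by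
      rw [abs_mul]
      nlinarith [h4 j, abs_nonneg (Q.coeff j), abs_nonneg s₀]
    have h11 : 0 ≤ C * (8 / η * A) := by positivity
    rw [← h1, Polynomial.coeff_add]
    refine (abs_add_le _ _).trans ?_
    rcases k with _ | k
    · rw [Polynomial.coeff_C_zero, Polynomial.mul_coeff_zero, Polynomial.coeff_sub,
        Polynomial.coeff_X_zero, Polynomial.coeff_C_zero, zero_sub, neg_mul, abs_neg]
      linarith [hA s₀ hs₀, h10 0]
    · rw [Polynomial.coeff_C_succ, Polynomial.coeff_X_sub_C_mul, abs_zero]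
      linarith [abs_sub (Q.coeff k) (s₀ * Q.coeff (k + 1)), h4 k, h10 (k + 1)]

theorem poly_thick (D : ℕ) (η : ℝ) (hη : 0 < η) : ∃ γ : ℝ, 0 < γ ∧ ∀ (a : ℕ → ℝ) (E : Set ℝ),
    E ⊆ Set.Icc (-1) 1 → ENNReal.ofReal η ≤ volume E → ∀ k < D,
      ∃ s ∈ E, γ * |a k| ≤ |∑ j ∈ Finset.range D, a j * s ^ j| := by
  obtain ⟨C, hC0, hC⟩ := sgen_coeff D η hη
  refine ⟨(2 * C + 1)⁻¹, by positivity, fun a E hE hv k hk => ?_⟩
  by_contra hcon
  push Not at hcon
  obtain ⟨s₀, hs₀⟩ := sgen_nonempty hη hv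
  have h1 := hC (∑ j ∈ Finset.range D, Polynomial.monomial j (a j)) E ((2 * C + 1)⁻¹ * |a k|)
    (Polynomial.natDegree_sum_le_of_forall_le _ _ fun j hj =>
      (Polynomial.natDegree_monomial_le _).trans (Finset.mem_range.1 hj).le) hE hv
    (fun s hs => by
      simpa only [Polynomial.eval_finsetSum, Polynomial.eval_monomial] using (hcon s hs).le) k
  have h2 : (∑ j ∈ Finset.range D, Polynomial.monomial j (a j)).coeff k = a k := by
    simp [Polynomial.coeff_monomial, hk]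
  rw [h2] at h1
  have h3 := (abs_nonneg _).trans_lt (hcon s₀ hs₀)
  have h4 : |a k| = (2 * C + 1) * ((2 * C + 1)⁻¹ * |a k|) := by field_simp
  nlinarith

theorem lin_vol (n : ℕ) (τ D : ℝ) (hτ : 0 < τ) : ∃ δ : ℝ, 0 < δ ∧
    ∀ (W : Fin n → Fin n → ℝ) (E : Set (Fin n → ℝ)) (f : (Fin n → ℝ) → Fin n → ℝ),
      (∀ i, ‖W i‖ ≤ D) → τ ≤ |(Matrix.of W).det| →
      (∀ t ∈ E, ∀ t' ∈ E, ‖f t - f t' - ∑ i, (t i - t' i) • W i‖ ≤ δ * ‖t - t'‖) →
      ENNReal.ofReal (τ / 2) * volume E ≤ volume (f '' E) := by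
  have h0 := mul_le_addHaar_image_of_lt_det (volume : Measure (Fin n → ℝ))
    (ContinuousLinearMap.id ℝ (Fin n → ℝ)) (m := 1 / 2) (by
      have : (ContinuousLinearMap.id ℝ (Fin n → ℝ)).det = 1 := LinearMap.det_id
      rw [this]
      simp)
  obtain ⟨δ, hδ, hδ0⟩ := (h0.and self_mem_nhdsWithin).exists
  have hδ1 : (0 : ℝ) < δ := hδ0
  set c : ℝ := τ⁻¹ * (n.factorial * max D 1 ^ n) with hc
  have hc0 : 0 ≤ c := by positivity
  refine ⟨δ / (n * c + 1), by positivity, fun W E f hW hdet hf => ?_⟩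
  have hd0 : (Matrix.of W).det ≠ 0 := fun h => by
    rw [h, abs_zero] at hdet
    linarith
  have hinv : ∀ i, ‖(Matrix.of W)⁻¹ i‖ ≤ c := by
    intro i
    refine (pi_norm_le_iff_of_nonneg hc0).2 fun j => ?_
    rw [Matrix.inv_def, Matrix.smul_apply, Matrix.adjugate_apply, Ring.inverse_eq_inv', smul_eq_mul,
      Real.norm_eq_abs, abs_mul, abs_inv]
    refine mul_le_mul (inv_anti₀ hτ hdet) ?_ (abs_nonneg _) (by positivity)
    have := Matrix.det_le (A := (Matrix.of W).updateRow j (Pi.single i 1))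
      (abv := AbsoluteValue.abs) (x := max D 1) (fun a b => by
        rw [Matrix.updateRow_apply, AbsoluteValue.abs_apply]
        split_ifs
        · refine le_trans ?_ (le_max_right _ _)
          rw [Pi.single_apply]
          split_ifs <;> simp
        · exact ((norm_le_pi_norm (W a) b).trans (hW a)).trans (le_max_left _ _))
    simpa using this
  have h1 := hδ E (fun t => Matrix.vecMul (f t) (Matrix.of W)⁻¹) (fun t ht t' ht' => by
    have h2 : Matrix.vecMul (f t) (Matrix.of W)⁻¹ - Matrix.vecMul (f t') (Matrix.of W)⁻¹ -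
        ContinuousLinearMap.id ℝ (Fin n → ℝ) (t - t') =
        Matrix.vecMul (f t - f t' - ∑ i, (t i - t' i) • W i) (Matrix.of W)⁻¹ := by
      have h3 : ∑ i, (t i - t' i) • W i = Matrix.vecMul (t - t') (Matrix.of W) :=
        (Matrix.vecMul_eq_sum (t - t') (Matrix.of W)).symm
      rw [h3, Matrix.sub_vecMul, Matrix.sub_vecMul, Matrix.vecMul_vecMul,
        Matrix.mul_nonsing_inv _ (Ne.isUnit hd0), Matrix.vecMul_one]
      rfl
    rw [h2, Matrix.vecMul_eq_sum]
    have h4 := hf t ht t' ht'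
    set v := f t - f t' - ∑ i, (t i - t' i) • W i
    have h5 : ‖∑ i, v i • (Matrix.of W)⁻¹ i‖ ≤ ∑ _i : Fin n, ‖v‖ * c := by
      refine (norm_sum_le _ _).trans (Finset.sum_le_sum fun i _ => ?_)
      rw [norm_smul]
      exact mul_le_mul (norm_le_pi_norm v i) (hinv i) (norm_nonneg _) (norm_nonneg _)
    rw [Finset.sum_const, Finset.card_univ, Fintype.card_fin, nsmul_eq_mul] at h5
    rw [div_mul_eq_mul_div, le_div_iff₀ (by positivity)] at h4
    nlinarith [norm_nonneg v])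
  have h6 : f '' E = Matrix.toLin' (Matrix.of W).transpose ''
      ((fun t => Matrix.vecMul (f t) (Matrix.of W)⁻¹) '' E) := by
    rw [Set.image_image]
    congr 1
    funext t
    rw [Matrix.toLin'_apply, Matrix.mulVec_transpose, Matrix.vecMul_vecMul,
      Matrix.nonsing_inv_mul _ (Ne.isUnit hd0), Matrix.vecMul_one]
  rw [h6, Measure.addHaar_image_linearMap, LinearMap.det_toLin', Matrix.det_transpose]
  have h7 : ENNReal.ofReal (τ / 2) = ENNReal.ofReal τ * ((1 / 2 : NNReal) : ENNReal) := by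
    rw [← ENNReal.ofReal_coe_nnreal, ← ENNReal.ofReal_mul hτ.le]
    congr 1
    push_cast
    ring
  rw [h7, mul_assoc]
  exact mul_le_mul' (ENNReal.ofReal_le_ofReal hdet) h1

theorem pigeon (F : Type) [NormedAddCommGroup F] [NormedSpace ℝ F] [FiniteDimensional ℝ F]
    [MeasurableSpace F] [BorelSpace F] (R ε : ℝ) (hε : 0 < ε) : ∃ p : ℝ, 0 < p ∧
    ∀ (Ω : Type) [MeasurableSpace Ω] (μ : Measure Ω) (B : Set Ω) (g : Ω → F) (T : ℝ),
      MeasurableSet B → Measurable g → 0 < T → (∀ x ∈ B, ‖g x‖ ≤ R * T) →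
      ∃ S ⊆ B, MeasurableSet S ∧ ENNReal.ofReal p * μ B ≤ μ S ∧
        ∀ x ∈ S, ∀ y ∈ S, ‖g x - g y‖ ≤ ε * T := by
  classical
  have := FiniteDimensional.proper_real F
  obtain ⟨t, -, ht, hcov⟩ := finite_cover_balls_of_compact (isCompact_closedBall (0 : F) R)
    (half_pos hε)
  set I : Finset F := insert 0 ht.toFinset with hI
  have hI0 : 0 < I.card := Finset.card_pos.2 (Finset.insert_nonempty _ _)
  refine ⟨(I.card : ℝ)⁻¹, by positivity, fun Ω _ μ B g T hB hg hT hb => ?_⟩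
  obtain ⟨c, -, hc⟩ := Finset.exists_max_image I
    (fun c => μ (B ∩ g ⁻¹' Metric.ball (T • c) (ε / 2 * T))) (Finset.insert_nonempty _ _)
  refine ⟨B ∩ g ⁻¹' Metric.ball (T • c) (ε / 2 * T), Set.inter_subset_left,
    hB.inter (hg measurableSet_ball), ?_, fun x hx y hy => ?_⟩
  · have h1 : B ⊆ ⋃ c ∈ I, B ∩ g ⁻¹' Metric.ball (T • c) (ε / 2 * T) := by
      intro x hx
      have h2 : T⁻¹ • g x ∈ Metric.closedBall (0 : F) R := by
        rw [mem_closedBall_zero_iff, norm_smul, Real.norm_of_nonneg (by positivity),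
          inv_mul_le_iff₀ hT, mul_comm]
        exact hb x hx
      obtain ⟨z, hz, h3⟩ := Set.mem_iUnion₂.1 (hcov h2)
      refine Set.mem_iUnion₂.2 ⟨z, Finset.mem_insert_of_mem (ht.mem_toFinset.2 hz), hx, ?_⟩
      rw [mem_ball_iff_norm] at h3
      rw [Set.mem_preimage, mem_ball_iff_norm]
      have h4 : g x - T • z = T • (T⁻¹ • g x - z) := by
        rw [smul_sub, smul_inv_smul₀ hT.ne']
      rw [h4, norm_smul, Real.norm_of_nonneg hT.le, mul_comm]
      exact mul_lt_mul_of_pos_right h3 hT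
    have h5 := ((measure_mono h1).trans (measure_biUnion_finset_le (μ := μ) _ _)).trans
      (Finset.sum_le_card_nsmul _ _ _ hc)
    rw [nsmul_eq_mul] at h5
    rw [ENNReal.ofReal_inv_of_pos (by positivity), ENNReal.ofReal_natCast]
    exact (ENNReal.inv_mul_le_iff (by simpa using hI0.ne') (by simp)).2 h5
  · have h1 := dist_triangle_right (g x) (g y) (T • c)
    have h2 : dist (g x) (T • c) < ε / 2 * T := hx.2
    have h3 : dist (g y) (T • c) < ε / 2 * T := hy.2
    rw [← dist_eq_norm]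
    linarith

theorem log_small (a b κ : ℝ) (hb : 0 ≤ b) (hκ : 0 < κ) : ∃ T₀ : ℝ, 1 ≤ T₀ ∧ ∀ T, T₀ ≤ T →
    a + b * Real.log (2 + b * T) < κ * T := by
  set θ : ℝ := κ / (2 * (b ^ 2 + 1)) with hθ
  have hθ0 : 0 < θ := by positivity
  have hθ1 : b ^ 2 * θ ≤ κ / 2 := by
    rw [hθ, ← mul_div_assoc, div_le_div_iff₀ (by positivity) (by positivity)]
    nlinarith
  refine ⟨max 1 ((a + 2 * b * θ - b * Real.log θ) / (κ / 2) + 1), le_max_left _ _, fun T hT => ?_⟩
  have h1 : 1 ≤ T := (le_max_left _ _).trans hT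
  have h2 : (a + 2 * b * θ - b * Real.log θ) / (κ / 2) < T := by
    linarith [(le_max_right _ _).trans hT]
  rw [div_lt_iff₀ (by positivity)] at h2
  have h3 := Real.log_le_sub_one_of_pos (show 0 < θ * (2 + b * T) by positivity)
  rw [Real.log_mul hθ0.ne' (by positivity)] at h3
  have h4 := mul_le_mul_of_nonneg_left h3 hb
  have h5 := mul_le_mul_of_nonneg_right hθ1 (zero_le_one.trans h1)
  nlinarith

end Vale.Agent.P188
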