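import Vale.Agent.P188.S.Prune
import Vale.Agent.P188.S.Gen

/-! Greedy choice of conjugated letters. -/

namespace Vale.Agent.P188.Geo
open scoped InnerProductSpace Pointwise
open MeasureTheory
variable (M : Geo)

theorem good_conj {T L U : Set M.G} {N : ℕ} {V y : M.G} (hU : U ⊆ T) (hV : M.Good T L N U V)
    (hy : M.A y = 0) (hV0 : M.A V = 0) (hL : ∀ t : ℝ, |t| ≤ 1 → t • y ∈ L) {s : ℝ} (hs : |s| ≤ 1) :
    M.Good T L (N + 2) {m ∈ U | m * (s • y) ∈ U} (M.Ad (s • y) V) := by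
  intro m hm t ht hm'
  have h1 : t • M.Ad (s • y) V = (s • y) * (t • V) * (s • y)⁻¹ := by
    rw [M.conj_eq (Or.inl (by rw [map_smul, hV0, smul_zero])), map_smul]
  have h2 : m * t • M.Ad (s • y) V * (s • y) = m * (s • y) * (t • V) := by
    rw [h1]; group
  have h3 := hV _ hm.2 t ht (h2 ▸ hm'.2)
  have h4 : (s • y)⁻¹ ∈ L := by
    rw [M.inv_eq_neg (Or.inl (by rw [map_smul, hy, smul_zero])), ← neg_smul]
    exact hL _ (by rwa [abs_neg])
  have h5 : Rch T L 1 (m * (s • y) * (t • V)) (m * t • M.Ad (s • y) V) :=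
    Rch.single' h3.right (by rw [← h2, mul_inv_rev, inv_mul_cancel_right]; exact h4) (hU hm'.1)
  exact (((Rch.single (hU hm.1) (hL s hs) (hU hm.2)).trans h3).trans h5).mono (by omega)

theorem sconj_Ad (f : M.G →ₗ[ℝ] ℝ) {y : M.G} (hy : M.A y = 0) (V : M.G) (s : ℝ) :
    f (M.Ad (s • y) V) =
      ∑ j ∈ Finset.range M.c, ((j.factorial : ℝ)⁻¹ * f ((M.B y ^ j) V)) * s ^ j := by
  rw [Ad, LinearMap.comp_apply, map_smul M.A, hy, smul_zero, del_zero, LinearMap.sum_apply, map_sum]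
  refine Finset.sum_congr rfl fun j _ => ?_
  rw [map_smul, smul_pow, LinearMap.smul_apply, LinearMap.smul_apply, map_smul, map_smul,
    smul_eq_mul, smul_eq_mul]
  ring

theorem sconj_le {a b : ℝ} (h : a ≤ b) {x y : ENNReal} (h' : ENNReal.ofReal b * x ≤ y) :
    ENNReal.ofReal a * x ≤ y := (mul_le_mul_left (ENNReal.ofReal_le_ofReal h) x).trans h'

theorem conj_word (n : ℕ) (p : ℝ) (hp : 0 < p) : ∃ γ C : ℝ, 0 < γ ∧ 1 ≤ C ∧ ∀ S, M.IsLB S →
    S ⊆ M.e → M.mE S ≠ 0 → ∀ (T L : Set M.G) (w : List M.G) (f : M.G →ₗ[ℝ] ℝ), w ≠ [] →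
      w.length ≤ n → (∀ y ∈ w, y ∈ S ∧ ∀ t : ℝ, |t| ≤ 1 → t • y ∈ L) → ∀ U ⊆ S, U ⊆ T →
      MeasurableSet U → ENNReal.ofReal p * M.mE S ≤ M.mE U → ∃ U' ⊆ U, ∃ V ∈ C • S,
        MeasurableSet U' ∧ ENNReal.ofReal γ * M.mE S ≤ M.mE U' ∧ γ * |f (M.mono w)| ≤ |f V| ∧
        M.Good T L (2 * n) U' V := by
  induction n with
  | zero =>
    refine ⟨1, 1, one_pos, le_rfl, fun S _ _ _ T L w f h1 h2 => ?_⟩
    exact absurd (List.length_eq_zero_iff.1 (Nat.le_zero.1 h2)) h1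
  | succ n ih =>
    obtain ⟨γ, C, hγ, hC, ih⟩ := ih
    obtain ⟨η, hη, hret⟩ := M.ret γ hγ
    obtain ⟨γ', hγ', hpoly⟩ := poly_thick M.c η hη
    obtain ⟨C', hC', hAd⟩ := M.Ad_mem 1 zero_le_one
    have hm1 : min (min p 1) (min η (γ' * γ)) ≤ p := (min_le_left _ _).trans (min_le_left _ _)
    have hm2 : min (min p 1) (min η (γ' * γ)) ≤ 1 := (min_le_left _ _).trans (min_le_right _ _)
    have hm3 : min (min p 1) (min η (γ' * γ)) ≤ η := (min_le_right _ _).trans (min_le_left _ _)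
    have hm4 : min (min p 1) (min η (γ' * γ)) ≤ γ' * γ :=
      (min_le_right _ _).trans (min_le_right _ _)
    have hCC : 1 ≤ C' * C := one_le_mul_of_one_le_of_one_le hC' hC
    refine ⟨min (min p 1) (min η (γ' * γ)), C' * C, by positivity, hCC,
      fun S hS hSe hS0 T L w f h1 h2 h3 U hUS hUT hU hpU => ?_⟩
    obtain ⟨y, w', rfl⟩ := List.exists_cons_of_ne_nil h1
    have hy := h3 y (by simp)
    by_cases hw : w' = []
    · subst hw
      refine ⟨U, subset_rfl, y, hS.sc.subset_smul hCC hy.1, hU, sconj_le hm1 hpU, ?_, ?_⟩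
      · exact mul_le_of_le_one_left (abs_nonneg _) hm2
      · intro m hm t ht hm'
        exact (Rch.single (hUT hm) (hy.2 t ht) (hUT hm')).mono (by omega)
    obtain ⟨U', hU'U, V, hV, hU', hγU, hf, hG⟩ := ih S hS hSe hS0 T L w' (f ∘ₗ M.B y) hw
      (by simpa using h2) (fun z hz => h3 z (List.mem_cons_of_mem _ hz)) U hUS hUT hU hpU
    have hE := hret S hS hSe hS0 y hy.1 U' (hU'U.trans hUS) hU' hγU
    have hy0 : M.A y = 0 := M.A_e (hSe hy.1)
    have hV0 : M.A V = 0 := by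
      obtain ⟨v, hv, rfl⟩ := hV
      exact M.A_e (M.e.smul_mem _ (hSe hv))
    have hs : ∃ s ∈ {s ∈ Set.Icc (-1 : ℝ) 1 |
        ENNReal.ofReal η * M.mE S ≤ M.mE {m ∈ U' | m * (s • y) ∈ U'}},
        γ' * |f (M.B y V)| ≤ |f (M.Ad (s • y) V)| := by
      by_cases hc : 1 < M.c
      · obtain ⟨s, hs, h4⟩ := hpoly (fun j => (j.factorial : ℝ)⁻¹ * f ((M.B y ^ j) V)) _
          (fun _ h => h.1) hE 1 hc
        exact ⟨s, hs, by rw [M.sconj_Ad f hy0]; simpa using h4⟩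
      · obtain ⟨s, hs⟩ := nonempty_of_measure_ne_zero
          ((ENNReal.ofReal_pos.2 hη).trans_le hE).ne'
        have h5 : M.B y V = 0 := M.nil [y] (not_lt.1 hc) V
        exact ⟨s, hs, by rw [h5]; simp⟩
    obtain ⟨s, hs, h4⟩ := hs
    have hs1 : |s| ≤ 1 := abs_le.2 hs.1
    refine ⟨{m ∈ U' | m * (s • y) ∈ U'}, fun m hm => hU'U hm.1, M.Ad (s • y) V, ?_,
      hU'.inter (hU'.preimage (measurable_mul_const _)), sconj_le hm3 hs.2, ?_, ?_⟩
    · rw [mul_smul]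
      refine hAd S (C • S) (hS.sc.smul C) ?_ _ (M.lb_one (hS.sc.smul_mem hy.1 hs1))
        (Or.inl (by rw [map_smul, hy0, smul_zero])) V hV
      rintro x hx _ ⟨v, hv, rfl⟩
      rw [map_smul]
      exact Set.smul_mem_smul_set (hS.lie x hx v hv)
    · rw [M.lb_cons y hw]
      calc _ ≤ γ' * γ * |f (M.B y (M.mono w'))| := mul_le_mul_of_nonneg_right hm4 (abs_nonneg _)
        _ = γ' * (γ * |(f ∘ₗ M.B y) (M.mono w')|) := by rw [mul_assoc]; rfl
        _ ≤ γ' * |f (M.B y V)| := mul_le_mul_of_nonneg_left hf hγ'.le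
        _ ≤ _ := h4
    · exact M.good_conj (hU'U.trans hUT) hG hy0 hV0 hy.2 hs1

theorem sconj_frame (n : ℕ) (p : ℝ) (hp : 0 < p) (k : ℕ) : ∃ γ C : ℝ, 0 < γ ∧ 1 ≤ C ∧ ∀ S,
    M.IsLB S → S ⊆ M.e → M.mE S ≠ 0 →
    ∀ (T L : Set M.G) (w : Fin n → List M.G) (Λ : M.G →ₗ[ℝ] (Fin n → ℝ)),
      (∀ j, w j ≠ [] ∧ (w j).length ≤ M.c ∧ ∀ y ∈ w j, y ∈ S ∧ ∀ t : ℝ, |t| ≤ 1 → t • y ∈ L) →
      (∀ j, Λ (M.mono (w j)) = Pi.single j 1) → T ⊆ S → MeasurableSet T →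
      ENNReal.ofReal p * M.mE S ≤ M.mE T → ∃ U ⊆ T, ∃ V : Fin n → M.G, MeasurableSet U ∧
        ENNReal.ofReal γ * M.mE S ≤ M.mE U ∧ γ ≤ |(Matrix.of fun i => Λ (V i)).det| ∧
        (∀ i : Fin n, (i : ℕ) < k → V i ∈ C • S ∧ M.Good T L (2 * M.c) U (V i)) ∧
        ∀ i : Fin n, k ≤ (i : ℕ) → V i = M.mono (w i) := by
  induction k with
  | zero =>
    refine ⟨min p 1, 1, by positivity, le_rfl, fun S _ _ _ T L w Λ _ h2 _ hT hpT => ?_⟩
    refine ⟨T, subset_rfl, fun i => M.mono (w i), hT, sconj_le (min_le_left _ _) hpT, ?_,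
      fun i hi => absurd hi (Nat.not_lt_zero _), fun _ _ => rfl⟩
    have : (Matrix.of fun i => Λ (M.mono (w i))) = 1 := by
      ext i j
      rw [Matrix.of_apply, h2, Matrix.one_apply, Pi.single_apply]
      simp only [eq_comm]
    rw [this, Matrix.det_one, abs_one]
    exact min_le_right _ _
  | succ k ih =>
    obtain ⟨γ, C, hγ, hC, ih⟩ := ih
    obtain ⟨γ', C', hγ', hC', hw⟩ := M.conj_word M.c γ hγ
    refine ⟨min γ (min γ' (γ' * γ)), max C C', by positivity, hC.trans (le_max_left _ _),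
      fun S hS hSe hS0 T L w Λ h1 h2 hTS hT hpT => ?_⟩
    obtain ⟨U, hUT, V, hU, hγU, hdet, h3, h4⟩ := ih S hS hSe hS0 T L w Λ h1 h2 hTS hT hpT
    have hmax : ∀ {a : ℝ}, 1 ≤ a → a ≤ max C C' → a • S ⊆ max C C' • S := fun h h' =>
      hS.sc.smul_mono (by rwa [abs_of_nonneg (by linarith)])
    by_cases hk : k < n
    swap
    · refine ⟨U, hUT, V, hU, sconj_le (min_le_left _ _) hγU, (min_le_left _ _).trans hdet,
        fun i _ => ?_, fun i hi => h4 i (by omega)⟩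
      have := h3 i (by omega)
      exact ⟨hmax hC (le_max_left _ _) this.1, this.2⟩
    let i₀ : Fin n := ⟨k, hk⟩
    let f : M.G →ₗ[ℝ] ℝ := ((Matrix.detRowAlternating (n := Fin n) (R := ℝ)).toMultilinearMap.toLinearMap
      (fun i => Λ (V i)) i₀) ∘ₗ Λ
    have hf : ∀ v, f v = (Matrix.of fun i => Λ (Function.update V i₀ v i)).det := fun v => by
      have : (fun i => Λ (Function.update V i₀ v i)) =
          Function.update (fun i => Λ (V i)) i₀ (Λ v) := by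
        funext i
        exact Function.apply_update (fun _ => Λ) V i₀ v i
      rw [this]
      rfl
    obtain ⟨U', hU'U, v, hv, hU', hγU', h5, h6⟩ := hw S hS hSe hS0 T L (w i₀) f (h1 i₀).1
      (h1 i₀).2.1 (h1 i₀).2.2 U (hUT.trans hTS) hUT hU hγU
    refine ⟨U', hU'U.trans hUT, Function.update V i₀ v, hU',
      sconj_le ((min_le_right _ _).trans (min_le_left _ _)) hγU', ?_, fun i hi => ?_,
      fun i hi => ?_⟩
    · rw [← hf]
      rw [← h4 i₀ le_rfl, hf, Function.update_eq_self] at h5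
      calc _ ≤ γ' * γ := (min_le_right _ _).trans (min_le_right _ _)
        _ ≤ _ := mul_le_mul_of_nonneg_left hdet hγ'.le
        _ ≤ _ := h5
    · by_cases h : i = i₀
      · rw [h, Function.update_self]
        exact ⟨hmax hC' (le_max_right _ _) hv, h6⟩
      · rw [Function.update_of_ne h]
        have := h3 i (by
          have : (i : ℕ) ≠ k := fun h' => h (Fin.ext h')
          omega)
        exact ⟨hmax hC (le_max_left _ _) this.1, Good.mono M this.2 hU'U le_rfl⟩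
    · rw [Function.update_of_ne (fun h => by rw [h] at hi; exact absurd hi (by simp [i₀]))]
      exact h4 i (by omega)

theorem conj_frame (n : ℕ) (p : ℝ) (hp : 0 < p) : ∃ γ C : ℝ, 0 < γ ∧ 1 ≤ C ∧ ∀ S, M.IsLB S →
    S ⊆ M.e → M.mE S ≠ 0 → ∀ (T L : Set M.G) (w : Fin n → List M.G) (Λ : M.G →ₗ[ℝ] (Fin n → ℝ)),
      (∀ j, w j ≠ [] ∧ (w j).length ≤ M.c ∧ ∀ y ∈ w j, y ∈ S ∧ ∀ t : ℝ, |t| ≤ 1 → t • y ∈ L) →
      (∀ j, Λ (M.mono (w j)) = Pi.single j 1) → T ⊆ S → MeasurableSet T →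
      ENNReal.ofReal p * M.mE S ≤ M.mE T → ∃ U ⊆ T, ∃ V : Fin n → M.G, MeasurableSet U ∧
        ENNReal.ofReal γ * M.mE S ≤ M.mE U ∧ γ ≤ |(Matrix.of fun i => Λ (V i)).det| ∧
        ∀ i, V i ∈ C • S ∧ M.Good T L (2 * M.c) U (V i) := by
  obtain ⟨γ, C, hγ, hC, h⟩ := M.sconj_frame n p hp n
  refine ⟨γ, C, hγ, hC, fun S hS hSe hS0 T L w Λ h1 h2 hTS hT hpT => ?_⟩
  obtain ⟨U, hUT, V, hU, h3, h4, h5, -⟩ := h S hS hSe hS0 T L w Λ h1 h2 hTS hT hpT
  exact ⟨U, hUT, V, hU, h3, h4, fun i => h5 i i.2⟩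

end Vale.Agent.P188.Geo
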