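import Vale.Agent.P188.S.Defs

/-! Coordinates adapted to `K r`, and near-linearity of short products.
`coord`: for the frame maximising `Phi r` (`exists_Phi`) copy the second half of the proof of
`vol_frame` (`K r` lies in a box); `Λ x j = exp (-(β j).map r sum) * b.repr (π x) j`.  The push
forward of `volume` on `e` under `Λ` is a Haar measure, so a multiple `c • volume`
(`Measure.isAddLeftInvariant_eq_smul`), and `mE (K r) ≤ c * (2 D) ^ n`.
`lin_prod`: induction on the list, `LieBr.lip` for `bchG` with `K = β • S`, `L = (C ρ) • S`,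
`L' = (C β ρ) • S`. -/

namespace Vale.Agent.P188.Geo
open scoped InnerProductSpace Pointwise
open MeasureTheory
variable (M : Geo)

theorem scoord_box {β} (hβ : M.Frame β)
    {b : Module.Basis (Fin (Module.finrank ℝ M.e)) ℝ M.e}
    (hb : ∀ j, (b j : M.G) = M.mono ((β j).map M.X)) {π : M.G →ₗ[ℝ] M.e}
    (hπ' : ∀ x : M.e, π x = x) : ∃ D : ℝ, 1 ≤ D ∧ ∀ r, M.Phi r = ∑ j, ((β j).map r).sum →
      ∀ x ∈ M.K r, ∀ j, |b.repr (π x) j| ≤ D * Real.exp ((β j).map r).sum := by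
  classical
  obtain ⟨C, hC, hgen⟩ := M.gen_subset_mono
  obtain ⟨B, hB⟩ := (((List.finite_length_le (Fin M.d) M.c).prod
    (Set.finite_univ (α := Fin (Module.finrank ℝ M.e)))).image
      fun q => |b.repr (π (M.mono (q.1.map M.X))) q.2|).bddAbove
  have hB' : ∀ w : List (Fin M.d), w.length ≤ M.c → ∀ j,
      |b.repr (π (M.mono (w.map M.X))) j| ≤ max B 1 := fun w hw j =>
    (hB ⟨(w, j), ⟨hw, Set.mem_univ _⟩, rfl⟩).trans (le_max_left _ _)
  have hB0 : (0 : ℝ) < max B 1 := lt_of_lt_of_le one_pos (le_max_right _ _)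
  refine ⟨C * max B 1, one_le_mul_of_one_le_of_one_le hC (le_max_right _ _),
    fun r hr x hx j => ?_⟩
  have hw : ∀ w : List (Fin M.d), (∀ i ∈ w, M.wt i ≠ 0) → w.length ≤ M.c → ∀ j,
      |b.repr (π (M.mono (w.map fun i => Real.exp (r i) • M.X i))) j| ≤
        max B 1 * Real.exp ((β j).map r).sum := by
    intro w hw hl j
    rw [vol_mono_exp, map_smul, map_smul, Finsupp.smul_apply, smul_eq_mul, abs_mul,
      abs_of_pos (Real.exp_pos _), mul_comm]
    by_cases h0 : b.repr (π (M.mono (w.map M.X))) j = 0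
    · rw [h0, abs_zero, zero_mul]
      positivity
    refine mul_le_mul (hB' w hl j) (Real.exp_le_exp.2 ?_) (Real.exp_pos _).le hB0.le
    have h1 := M.le_Phi (Frame.update M hβ hb hw (j := j) (by
      rwa [← hπ' ⟨_, M.vol_word_mem w hw⟩])) r
    rw [hr, ← Finset.add_sum_erase _ _ (Finset.mem_univ j),
      ← Finset.add_sum_erase _ _ (Finset.mem_univ j), Function.update_self,
      Finset.sum_congr rfl fun j' hj' => by
        rw [Function.update_of_ne (Finset.ne_of_mem_erase hj')]] at h1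
    linarith
  obtain ⟨y, hy, hxy⟩ := hgen _ hx
  have h2 : |((b.coord j) ∘ₗ π) y| ≤ max B 1 * Real.exp ((β j).map r).sum := by
    have hconv : Convex ℝ
        {z : M.G | |((b.coord j) ∘ₗ π) z| ≤ max B 1 * Real.exp ((β j).map r).sum} := by
      have := (convex_Icc (𝕜 := ℝ) (-(max B 1 * Real.exp ((β j).map r).sum))
        (max B 1 * Real.exp ((β j).map r).sum)).linear_preimage ((b.coord j) ∘ₗ π)
      simp only [abs_le]
      exact this
    refine convexHull_min ?_ hconv hy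
    rintro z (rfl | ⟨l, -, hl1, hl, hz⟩)
    · change |((b.coord j) ∘ₗ π) 0| ≤ _
      rw [map_zero, abs_zero]
      positivity
    · obtain ⟨w, hw', rfl⟩ := M.vol_exists_word l hl
      rw [List.length_map] at hl1
      rcases hz with rfl | rfl
      · exact hw w hw' hl1 j
      · change |((b.coord j) ∘ₗ π) (-_)| ≤ _
        rw [map_neg, abs_neg]
        exact hw w hw' hl1 j
  have h3 : b.repr (π x) j = C * ((b.coord j) ∘ₗ π) y := by
    rw [← smul_eq_mul, ← map_smul, show C • y = (x : M.G) from hxy, LinearMap.comp_apply]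
    rfl
  rw [h3, abs_mul, abs_of_pos (by linarith), mul_assoc]
  exact mul_le_mul_of_nonneg_left h2 (by linarith)

theorem scoord_meas {n : ℕ} (b : Module.Basis (Fin n) ℝ M.e) {π : M.G →ₗ[ℝ] M.e}
    (hπ' : ∀ x : M.e, π x = x) {D : ℝ} (hD : 0 ≤ D) {K : Set M.G}
    (hK : ∀ x ∈ K, ‖(b.equivFun.toLinearMap ∘ₗ π) x‖ ≤ D) (Y : Set M.G) (hY : Y ⊆ M.e) :
    M.mE K * volume ((b.equivFun.toLinearMap ∘ₗ π) '' Y) ≤
      ENNReal.ofReal ((2 * D) ^ n) * M.mE Y := by
  let E : (Fin n → ℝ) ≃L[ℝ] M.e := b.equivFunL.symm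
  let ν : Measure M.e := (volume : Measure (Fin n → ℝ)).map E
  have : ν.IsAddHaarMeasure := E.isAddHaarMeasure_map volume
  have hν : ∀ A : Set M.e, ν A = volume (E ⁻¹' A) := fun A =>
    E.toHomeomorph.toMeasurableEquiv.map_apply A
  obtain ⟨c, hc⟩ : ∃ c : NNReal, (volume : Measure M.e) = c • ν :=
    ⟨_, Measure.isAddLeftInvariant_eq_smul _ _⟩
  have hm : ∀ A : Set M.G, M.mE A = c * volume (E ⁻¹' ((Subtype.val : M.e → M.G) ⁻¹' A)) := by
    intro A
    have h1 : M.mE A = volume ((Subtype.val : M.e → M.G) ⁻¹' A) := subMu_apply _ _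
    rw [h1, hc, Measure.smul_apply, hν]
    rfl
  have hE : ∀ v, (b.equivFun.toLinearMap ∘ₗ π) (E v : M.G) = v := by
    intro v
    simp only [LinearMap.comp_apply, hπ']
    exact b.equivFunL.apply_symm_apply v
  have h1 : E ⁻¹' ((Subtype.val : M.e → M.G) ⁻¹' K) ⊆ Metric.closedBall 0 D := by
    intro v hv
    have := hK _ hv
    rw [hE] at this
    simpa using this
  have h2 : (b.equivFun.toLinearMap ∘ₗ π) '' Y = E ⁻¹' ((Subtype.val : M.e → M.G) ⁻¹' Y) := by
    ext v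
    constructor
    · rintro ⟨y, hy, rfl⟩
      have h3 : E ((b.equivFun.toLinearMap ∘ₗ π) y) = π y := b.equivFunL.symm_apply_apply _
      change ((E _ : M.e) : M.G) ∈ Y
      rw [h3, show π y = ⟨y, hY hy⟩ from hπ' ⟨y, hY hy⟩]
      exact hy
    · exact fun hv => ⟨_, hv, hE v⟩
  have h4 := measure_mono (μ := (volume : Measure (Fin n → ℝ))) h1
  rw [Real.volume_pi_closedBall _ hD, Fintype.card_fin] at h4
  rw [hm K, hm Y, h2, mul_comm (c : ENNReal), mul_assoc]
  exact mul_le_mul_left h4 _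

theorem scoord_frame {β} (hβ : M.Frame β) : ∃ D : ℝ, ∀ r, M.Phi r = ∑ j, ((β j).map r).sum →
    ∃ Λ : M.G →ₗ[ℝ] (Fin (Module.finrank ℝ M.e) → ℝ),
      (∀ j, Λ (M.mono ((β j).map fun i => Real.exp (r i) • M.X i)) = Pi.single j 1) ∧
      (∀ x ∈ M.K r, ‖Λ x‖ ≤ D) ∧
      ∀ Y ⊆ (M.e : Set M.G), M.mE (M.K r) * volume (Λ '' Y) ≤ ENNReal.ofReal D * M.mE Y := by
  classical
  obtain ⟨b, hb⟩ := Frame.basis M hβ
  obtain ⟨π, hπ⟩ := M.e.subtype.exists_leftInverse_of_injective M.e.ker_subtype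
  have hπ' : ∀ x : M.e, π x = x := fun x => LinearMap.congr_fun hπ x
  obtain ⟨D, hD, hbox⟩ := M.scoord_box hβ hb hπ'
  refine ⟨max D ((2 * D) ^ Module.finrank ℝ M.e), fun r hr => ?_⟩
  let b' := b.unitsSMul fun j => Units.mk0 (Real.exp ((β j).map r).sum) (Real.exp_pos _).ne'
  have hK : ∀ x ∈ M.K r, ‖(b'.equivFun.toLinearMap ∘ₗ π) x‖ ≤ D := by
    intro x hx
    rw [pi_norm_le_iff_of_nonneg (by linarith)]
    intro j
    have h1 : (b'.equivFun.toLinearMap ∘ₗ π) x j =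
        (Real.exp ((β j).map r).sum)⁻¹ * b.repr (π x) j := by
      simp [b', Module.Basis.repr_unitsSMul, Units.smul_def]
    rw [h1, Real.norm_eq_abs, abs_mul, abs_of_pos (inv_pos.2 (Real.exp_pos _)),
      inv_mul_le_iff₀ (Real.exp_pos _), mul_comm]
    exact hbox r hr x hx j
  refine ⟨b'.equivFun.toLinearMap ∘ₗ π, fun j => ?_,
    fun x hx => (hK x hx).trans (le_max_left _ _), fun Y hY => ?_⟩
  · have h1 : M.mono ((β j).map fun i => Real.exp (r i) • M.X i) = (b' j : M.G) := by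
      rw [vol_mono_exp, ← hb]
      simp [b', Module.Basis.unitsSMul_apply, Units.smul_def]
    rw [h1, LinearMap.comp_apply, hπ']
    funext k
    simp [Pi.single_apply, Finsupp.single_apply, eq_comm]
  · refine (M.scoord_meas b' hπ' (by linarith) hK Y hY).trans ?_
    exact mul_le_mul_left (ENNReal.ofReal_le_ofReal (le_max_right _ _)) _

theorem coord : ∃ D : ℝ, 1 ≤ D ∧ ∀ r : Fin M.d → ℝ,
    ∃ (β : Fin (Module.finrank ℝ M.e) → List (Fin M.d))
      (Λ : M.G →ₗ[ℝ] (Fin (Module.finrank ℝ M.e) → ℝ)),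
      (∀ j, β j ≠ [] ∧ (β j).length ≤ M.c ∧ ∀ i ∈ β j, M.wt i ≠ 0) ∧
      (∀ j, Λ (M.mono ((β j).map fun i => Real.exp (r i) • M.X i)) = Pi.single j 1) ∧
      (∀ x ∈ M.K r, ‖Λ x‖ ≤ D) ∧
      ∀ Y ⊆ (M.e : Set M.G), M.mE (M.K r) * volume (Λ '' Y) ≤ ENNReal.ofReal D * M.mE Y := by
  choose! C hC using fun β (hβ : M.Frame β) => M.scoord_frame hβ
  obtain ⟨B, hB⟩ := (M.frames_finite.image C).bddAbove
  refine ⟨max B 1, le_max_right _ _, fun r => ?_⟩
  obtain ⟨β, hβ, h1⟩ := M.exists_Phi r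
  have h2 : C β ≤ max B 1 := (hB ⟨β, hβ, rfl⟩).trans (le_max_left _ _)
  obtain ⟨Λ, h3, h4, h5⟩ := hC β hβ r h1
  refine ⟨β, Λ, fun j => ⟨fun h => ?_, Frame.length_le M hβ j, hβ.1 j⟩, h3,
    fun x hx => (h4 x hx).trans h2, fun Y hY => (h5 Y hY).trans ?_⟩
  · exact hβ.2.ne_zero j (by simp [h, mono])
  · exact mul_le_mul_left (ENNReal.ofReal_le_ofReal h2) _

theorem lin_prod (C₁ : ℝ) (hC : 0 ≤ C₁) (n : ℕ) : ∃ C : ℝ, 1 ≤ C ∧ ∀ S, M.IsLB S → M.Tame S →
    ∀ β ρ : ℝ, 0 ≤ β → β ≤ 1 → 0 ≤ ρ → ∀ x x' : Fin n → M.G, (∀ i, x i ∈ (C₁ * β) • S) →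
      (∀ i, x' i ∈ (C₁ * β) • S) → (∀ i, x i - x' i ∈ ρ • S) →
      (List.ofFn x).prod ∈ (C * β) • S ∧
        (List.ofFn x).prod - (List.ofFn x').prod - ∑ i, (x i - x' i) ∈ (C * β * ρ) • S := by
  induction n with
  | zero =>
    refine ⟨1, le_rfl, fun S hS _ β ρ _ _ _ x x' _ _ _ => ⟨?_, ?_⟩⟩
    · simpa [one_def] using (hS.sc.smul β).zero_mem
    · simpa using (hS.sc.smul (β * ρ)).zero_mem
  | succ n ih =>
    obtain ⟨C, hC1, ih⟩ := ih
    have hn : (0 : ℝ) ≤ n := Nat.cast_nonneg n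
    obtain ⟨C', hC', hlip⟩ := M.bchG.lip (C₁ + C) (by linarith)
    obtain ⟨C'', hC'', hmul⟩ := M.mul_mem (C₁ + C) (by linarith)
    refine ⟨C'' + C' * (C + n) + C, by nlinarith, fun S hS ht β ρ hβ0 hβ1 hρ x x' hx hx' hd => ?_⟩
    have hsc := hS.sc
    obtain ⟨hP, hD⟩ := ih S hS ht β ρ hβ0 hβ1 hρ (fun i => x i.succ) (fun i => x' i.succ)
      (fun i => hx _) (fun i => hx' _) (fun i => hd _)
    obtain ⟨hP', -⟩ := ih S hS ht β ρ hβ0 hβ1 hρ (fun i => x' i.succ) (fun i => x' i.succ)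
      (fun i => hx' _) (fun i => hx' _) (fun i => by
        rw [sub_self]; exact (hsc.smul _).zero_mem)
    set P := (List.ofFn fun i : Fin n => x i.succ).prod with hPd
    set P' := (List.ofFn fun i : Fin n => x' i.succ).prod with hPd'
    have hK := IsLB.smul M hS hβ0 hβ1
    have htK := Tame.smul M ht β
    have hup : ∀ {t : ℝ} {z : M.G}, 0 ≤ t → t ≤ C₁ + C → z ∈ (t * β) • S →
        z ∈ (C₁ + C) • (β • S) := by
      intro t z h0 h1 hz
      rw [smul_smul]
      refine hsc.smul_mono ?_ hz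
      rw [abs_of_nonneg (mul_nonneg h0 hβ0)]
      exact mul_le_mul_of_nonneg_right h1 hβ0
    have a1 := hup hC (by linarith) (hx 0)
    have a2 := hup hC (by linarith) (hx' 0)
    have a3 := hup (by linarith) (by linarith) hP
    have a4 := hup (by linarith) (by linarith) hP'
    have htt := Tame.smul M htK (C₁ + C)
    have e1 : x 0 * P = M.st (x 0) P := M.mul_eq_st (htt.imp (fun h => h _ a1) (fun h => h _ a3))
    have e2 : x' 0 * P' = M.st (x' 0) P' :=
      M.mul_eq_st (htt.imp (fun h => h _ a2) (fun h => h _ a4))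
    have hCn : 0 ≤ (C + n) * ρ := mul_nonneg (by linarith) hρ
    have hsum : ∑ i : Fin n, (x i.succ - x' i.succ) ∈ ((n : ℝ) * ρ) • S := by
      simpa using hsc.sum_mem Finset.univ (fun i : Fin n => x i.succ - x' i.succ) (fun _ => ρ)
        (fun _ _ => hρ) (fun i _ => hd _)
    have hCβρ : 0 ≤ C * β * ρ := by positivity
    have b1 : P - P' ∈ ((C + n) * ρ) • S := by
      have h1 := hsc.add_mem hCβρ (by positivity) hD hsum
      rw [sub_add_cancel] at h1
      refine hsc.smul_mono ?_ h1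
      rw [abs_of_nonneg (by positivity)]
      have : C * β * ρ ≤ C * ρ := by
        rw [mul_assoc]
        exact mul_le_mul_of_nonneg_left (mul_le_of_le_one_left hρ hβ1) (by linarith)
      linarith
    have b2 : x 0 - x' 0 ∈ ((C + n) * ρ) • S := by
      refine hsc.smul_mono ?_ (hd 0)
      rw [abs_of_nonneg hρ]
      nlinarith
    have hKL' : ∀ u ∈ β • S, ∀ v ∈ ((C + n) * ρ) • S,
        M.B u v ∈ (β * ((C + n) * ρ)) • S ∧ M.B v u ∈ (β * ((C + n) * ρ)) • S := by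
      intro u hu v hv
      refine ⟨SC.map_mem₂ M.B hS.lie hu hv, ?_⟩
      rw [mul_comm β]
      exact SC.map_mem₂ M.B hS.lie hv hu
    have hsub : (β * ((C + n) * ρ)) • S ⊆ ((C + n) * ρ) • S := hsc.smul_mono (by
      rw [abs_of_nonneg (mul_nonneg hβ0 hCn)]
      exact mul_le_of_le_one_left hCn hβ1)
    have hR := hlip (β • S) (((C + n) * ρ) • S) ((β * ((C + n) * ρ)) • S) hK.sc (hsc.smul _)
      (hsc.smul _) hK.lie (fun u hu v hv => ⟨hsub (hKL' u hu v hv).1, hsub (hKL' u hu v hv).2⟩)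
      hKL' _ a1 _ a3 _ a2 _ a4 b2 b1
    rw [smul_smul] at hR
    rw [List.ofFn_succ, List.ofFn_succ, List.prod_cons, List.prod_cons, Fin.sum_univ_succ,
      ← hPd, ← hPd']
    have hC'n : 0 ≤ C' * (C + n) := mul_nonneg (by linarith) (by linarith)
    constructor
    · have h1 := hmul _ hK htK _ a1 _ a3
      rw [smul_smul] at h1
      refine hsc.smul_mono ?_ h1
      rw [abs_of_nonneg (mul_nonneg (by linarith) hβ0)]
      exact mul_le_mul_of_nonneg_right (by linarith) hβ0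
    · have h0 : 0 ≤ C' * (β * ((C + n) * ρ)) := mul_nonneg (by linarith) (mul_nonneg hβ0 hCn)
      have h1 := hsc.add_mem h0 hCβρ hR hD
      have e3 : x 0 * P - x' 0 * P' - (x 0 - x' 0 + ∑ i : Fin n, (x i.succ - x' i.succ)) =
          M.st (x 0) P - x 0 - P - (M.st (x' 0) P' - x' 0 - P') +
            (P - P' - ∑ i : Fin n, (x i.succ - x' i.succ)) := by
        rw [e1, e2]; abel
      rw [e3]
      refine hsc.smul_mono ?_ h1
      rw [abs_of_nonneg (add_nonneg h0 hCβρ)]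
      have : 0 ≤ C'' * (β * ρ) := mul_nonneg (by linarith) (mul_nonneg hβ0 hρ)
      nlinarith

end Vale.Agent.P188.Geo
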