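import Vale.Agent.P188.AffDefs

/-! Part S: chains of moves inside a set. -/

namespace Vale.Agent.P188
open scoped InnerProductSpace Pointwise
open MeasureTheory

/-- `z` is reached from `x` by at most `n` right multiplications by elements of `L`, all visited
points lying in `T`. -/
inductive Rch {G : Type*} [Group G] (T L : Set G) : ℕ → G → G → Prop
  | refl {n x} : x ∈ T → Rch T L n x x
  | step {n x b z} : x ∈ T → b ∈ L → Rch T L n (x * b) z → Rch T L (n + 1) x z

/-- All points visited by the word `l` from `m` lie in `U`. -/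
def Chain {G : Type*} [Group G] (U : Set G) : G → List G → Prop
  | m, [] => m ∈ U
  | m, x :: l => m ∈ U ∧ Chain U (m * x) l

section
variable {G G' : Type*} [Group G] [Group G'] {T L : Set G}

theorem Rch.left {n x z} (h : Rch T L n x z) : x ∈ T := by
  cases h <;> assumption

theorem Rch.right {n x z} (h : Rch T L n x z) : z ∈ T := by
  induction h with
  | refl h => exact h
  | step _ _ _ ih => exact ih

theorem Rch.mono {n n' x z} (h : Rch T L n x z) (hn : n ≤ n') : Rch T L n' x z := by
  induction h generalizing n' with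
  | refl h => exact .refl h
  | step h1 h2 _ ih =>
    obtain ⟨k, rfl⟩ : ∃ k, n' = k + 1 := ⟨n' - 1, by omega⟩
    exact .step h1 h2 (ih (by omega))

theorem Rch.trans {n k x y z} (h : Rch T L n x y) (h' : Rch T L k y z) :
    Rch T L (n + k) x z := by
  induction h with
  | refl _ => exact h'.mono (by omega)
  | step h1 h2 _ ih => exact (Rch.step h1 h2 (ih h')).mono (by omega)

theorem Rch.single {x b : G} (hx : x ∈ T) (hb : b ∈ L) (h : x * b ∈ T) : Rch T L 1 x (x * b) :=
  .step hx hb (.refl h)

theorem Rch.single' {x y : G} (hx : x ∈ T) (hb : x⁻¹ * y ∈ L) (h : y ∈ T) : Rch T L 1 x y := by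
  have := Rch.single hx hb (by simpa using h)
  simpa using this

theorem Rch.symm (hL : ∀ b ∈ L, b⁻¹ ∈ L) {n x z} (h : Rch T L n x z) : Rch T L n z x := by
  induction h with
  | refl h => exact .refl h
  | step h1 h2 h3 ih => exact ih.trans (Rch.single' h3.left (by simpa using hL _ h2) h1)

theorem Rch.map {H B : Set G'} (φ : G → G') {k : ℕ} (h0 : ∀ x ∈ T, φ x ∈ H)
    (h1 : ∀ x ∈ T, ∀ b ∈ L, x * b ∈ T → Rch H B k (φ x) (φ (x * b))) {n x z}
    (h : Rch T L n x z) : Rch H B (n * k) (φ x) (φ z) := by
  induction h with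
  | refl h => exact .refl (h0 _ h)
  | step h2 h3 h4 ih => exact ((h1 _ h2 _ h3 h4.left).trans ih).mono (le_of_eq (by ring))

theorem Rch.toList {n x z} (h : Rch T L n x z) : ∃ l : List G, l.length ≤ n ∧ (∀ b ∈ l, b ∈ L) ∧
    (∀ j, x * (l.take j).prod ∈ T) ∧ x * l.prod = z := by
  induction h with
  | refl h => exact ⟨[], by simp, by simp, by simpa using h, by simp⟩
  | @step n x b z h1 h2 _ ih =>
    obtain ⟨l, e1, e2, e3, e4⟩ := ih
    refine ⟨b :: l, by simpa using e1, ?_, fun j => ?_, by simpa [mul_assoc] using e4⟩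
    · simpa [h2] using e2
    · cases j with
      | zero => simpa using h1
      | succ j => simpa [mul_assoc] using e3 j

theorem Chain.left {U : Set G} {m l} (h : Chain U m l) : m ∈ U := by
  cases l with
  | nil => exact h
  | cons x l => exact h.1

theorem Chain.rch {U : Set G} {N : ℕ} (hU : U ⊆ T) : ∀ (l : List G) (m : G), Chain U m l →
    (∀ x ∈ l, ∀ m ∈ U, m * x ∈ U → Rch T L N m (m * x)) → Rch T L (l.length * N) m (m * l.prod)
  | [], m, h, _ => by simpa using Rch.refl (hU h)
  | x :: l, m, h, h' => by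
    have h1 := Chain.rch hU l (m * x) h.2 fun y hy => h' y (List.mem_cons_of_mem _ hy)
    have h2 := (h' x (by simp) m h.1 h.2.left).trans h1
    rw [List.prod_cons, ← mul_assoc]
    exact h2.mono (le_of_eq (by simp; ring))

end

namespace Geo
variable (M : Geo)

/-- Moves along the line of `V` between points of `U` are realised by chains in `T`. -/
def Good (T L : Set M.G) (N : ℕ) (U : Set M.G) (V : M.G) : Prop :=
  ∀ m ∈ U, ∀ t : ℝ, |t| ≤ 1 → m * (t • V) ∈ U → Rch T L N m (m * (t • V))

/-- Segments along the letters of `K r`. -/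
def Seg (r : Fin M.d → ℝ) : Set M.G :=
  {b | ∃ i, ∃ t : ℝ, M.wt i ≠ 0 ∧ |t| ≤ 1 ∧ b = t • Real.exp (r i) • M.X i}

theorem Good.mono {T L : Set M.G} {N N' : ℕ} {U U' : Set M.G} {V : M.G} (h : M.Good T L N U V)
    (hU : U' ⊆ U) (hN : N ≤ N') : M.Good T L N' U' V :=
  fun m hm t ht h' => (h m (hU hm) t ht (hU h')).mono hN

end Geo
end Vale.Agent.P188
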