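import Vale.Agent.P188.S.Conj
import Vale.Agent.P188.S.Coord

/-! A dense subset of `K r` contains a point from which a positive proportion of `K r` is reached
by boundedly many letter moves inside the subset. -/

namespace Vale.Agent.P188.Geo
open scoped InnerProductSpace Pointwise
open MeasureTheory
variable (M : Geo)

theorem sspread_prod : ∀ l : List M.G, (∀ x ∈ l, x ∈ M.e) → l.prod ∈ M.e
  | [], _ => M.e.zero_mem
  | x :: l, h => by
    rw [List.prod_cons]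
    exact M.mul_mem_e (h x (by simp)) (sspread_prod l fun y hy => h y (List.mem_cons_of_mem _ hy))

theorem mE_K_ne_zero (r) : M.mE (M.K r) ≠ 0 := fun h => by
  have := M.mE_K_pos r
  rw [Measure.real, h] at this
  simp at this

theorem mE_K_ne_top (r) : M.mE (M.K r) ≠ ⊤ := fun h => by
  have := M.mE_K_pos r
  rw [Measure.real, h] at this
  simp at this

theorem spread (p : ℝ) (hp : 0 < p) : ∃ (N : ℕ) (γ : ℝ), 0 < γ ∧ ∀ (r : Fin M.d → ℝ)
    (T : Set M.G), MeasurableSet T → T ⊆ M.K r → ENNReal.ofReal p * M.mE (M.K r) ≤ M.mE T →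
      ∃ m ∈ T, ∃ Y ⊆ (M.e : Set M.G), ENNReal.ofReal γ * M.mE (M.K r) ≤ M.mE Y ∧
        ∀ y ∈ Y, Rch T (M.Seg r) N m (m * y) := by
  obtain ⟨D, hD, hco⟩ := M.coord
  obtain ⟨γ₁, C₁, hγ₁, hC₁, hfr⟩ := M.conj_frame (Module.finrank ℝ M.e) p hp
  obtain ⟨δ, hδ, hlin⟩ := lin_vol (Module.finrank ℝ M.e) γ₁ (C₁ * D) hγ₁
  obtain ⟨C₂, hC₂, hprod⟩ := M.lin_prod C₁ (by linarith) (Module.finrank ℝ M.e)
  obtain ⟨γ₂, hγ₂, htree⟩ := M.tree C₁ (by linarith) (Module.finrank ℝ M.e) γ₁ hγ₁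
  obtain ⟨β, hβ, hβ1, hβδ⟩ : ∃ β : ℝ, 0 < β ∧ β ≤ 1 ∧ C₂ * β * C₁ * D ≤ δ := by
    refine ⟨min 1 (δ / (C₂ * C₁ * D)), by positivity, min_le_left _ _, ?_⟩
    have := (le_div_iff₀ (by positivity)).1 (min_le_right 1 (δ / (C₂ * C₁ * D)))
    linarith
  refine ⟨Module.finrank ℝ M.e * (2 * M.c), γ₁ / 2 * (γ₂ * β ^ Module.finrank ℝ M.e) / D,
    by positivity, fun r T hT hTK hpT => ?_⟩
  obtain ⟨w, Λ, hw, hΛ, hΛD, hvol⟩ := hco r
  have hK := M.K_isLB r
  obtain ⟨U, hUT, V, hU, hγU, hdet, hV⟩ := hfr (M.K r) hK (M.K_sub_e r) (M.mE_K_ne_zero r) T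
    (M.Seg r) (fun j => (w j).map fun i => Real.exp (r i) • M.X i) Λ (fun j => ⟨by
      simpa using (hw j).1, by simpa using (hw j).2.1, fun y hy => by
        obtain ⟨i, hi, rfl⟩ := List.mem_map.1 hy
        exact ⟨M.X_mem_K ((hw j).2.2 i hi) (abs_of_pos (Real.exp_pos _)).le,
          fun t ht => ⟨i, t, (hw j).2.2 i hi, ht, rfl⟩⟩⟩) hΛ hTK hT hpT
  obtain ⟨U', hU'U, -, hγU', hE⟩ := htree (M.K r) hK (M.K_sub_e r) V (fun i => (hV i).1) β hβ hβ1
    U (hUT.trans hTK) hU hγU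
  obtain ⟨m, hm⟩ := nonempty_of_measure_ne_zero ((ENNReal.mul_pos
    (ENNReal.ofReal_pos.2 hγ₂).ne' (M.mE_K_ne_zero r)).trans_le hγU').ne'
  have hΛC : ∀ {a : ℝ}, 0 ≤ a → ∀ x ∈ a • M.K r, ‖Λ x‖ ≤ a * D := by
    rintro a ha _ ⟨x, hx, rfl⟩
    rw [map_smul, norm_smul, Real.norm_of_nonneg ha]
    exact mul_le_mul_of_nonneg_left (hΛD x hx) ha
  have hsm : ∀ {u a : ℝ} (i), |u| ≤ a → u • V i ∈ (C₁ * a) • M.K r := fun i h =>
    hK.sc.smul_mem_smul (by linarith) (hV i).1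
      ((mul_le_mul_of_nonneg_right h (by linarith)).trans (mul_comm _ _).le)
  set E := {t : Fin (Module.finrank ℝ M.e) → ℝ | (∀ i, |t i| ≤ β) ∧
    Chain U m (List.ofFn fun i => t i • V i)} with hEdef
  let F : (Fin (Module.finrank ℝ M.e) → ℝ) → M.G := fun t => (List.ofFn fun i => t i • V i).prod
  have hFe : F '' E ⊆ (M.e : Set M.G) := by
    rintro _ ⟨t, -, rfl⟩
    refine M.sspread_prod _ fun x hx => ?_
    obtain ⟨i, rfl⟩ := (List.mem_ofFn' _ _).1 hx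
    obtain ⟨v, hv, h⟩ := (hV i).1
    exact M.e.smul_mem _ (h ▸ M.e.smul_mem _ (M.K_sub_e r hv))
  refine ⟨m, hUT (hU'U hm), F '' E, hFe, ?_, ?_⟩
  · have h1 := hlin (fun i => Λ (V i)) E (fun t => Λ (F t))
      (fun i => hΛC (by linarith) _ (hV i).1) hdet fun t ht t' ht' => by
        have h2 := (hprod (M.K r) hK (M.K_tame r) β (C₁ * ‖t - t'‖) hβ.le hβ1 (by positivity)
          (fun i => t i • V i) (fun i => t' i • V i) (fun i => hsm i (ht.1 i))
          (fun i => hsm i (ht'.1 i)) (fun i => by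
            rw [← sub_smul]
            exact hsm i (norm_le_pi_norm (t - t') i))).2
        have h3 := hΛC (by positivity) _ h2
        simp only [map_sub, map_sum, ← sub_smul, map_smul] at h3
        refine h3.trans ?_
        have := mul_le_mul_of_nonneg_right hβδ (norm_nonneg (t - t'))
        linarith
    have h4 := hvol (F '' E) hFe
    rw [Set.image_image] at h4
    have h5 : M.mE (M.K r) * (ENNReal.ofReal (γ₁ / 2) *
        ENNReal.ofReal (γ₂ * β ^ Module.finrank ℝ M.e)) ≤ ENNReal.ofReal D * M.mE (F '' E) :=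
      (mul_le_mul_right ((mul_le_mul_right (hE m hm) _).trans h1) _).trans h4
    have hD0 : ENNReal.ofReal D ≠ 0 := (ENNReal.ofReal_pos.2 (by linarith)).ne'
    rw [← ENNReal.mul_le_mul_iff_right hD0 ENNReal.ofReal_ne_top, ← mul_assoc,
      ← ENNReal.ofReal_mul (by linarith), mul_div_cancel₀ _ (by linarith),
      ENNReal.ofReal_mul (by positivity), mul_comm]
    exact h5
  · rintro _ ⟨t, ht, rfl⟩
    have := Chain.rch (T := T) (L := M.Seg r) (N := 2 * M.c) hUT _ m ht.2 fun x hx => by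
      obtain ⟨i, rfl⟩ := (List.mem_ofFn' _ _).1 hx
      exact fun m' hm' => (hV i).2 m' hm' _ ((ht.1 i).trans hβ1)
    rwa [List.length_ofFn] at this

end Vale.Agent.P188.Geo
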