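import Vale.Agent.P188.S.Target
import Vale.Agent.P188.S.Spread

/-! The fibre version of the zigzag volume bound. -/

namespace Vale.Agent.P188.Geo
open scoped InnerProductSpace Pointwise
open MeasureTheory
variable (M : Geo)

theorem sfibre_bound (K C : ℝ) : ∃ R : ℝ, ∀ φ, IsQI M.Q M.Q K C φ → ∀ c ∈ M.u0, ‖c‖ ≤ 1 →
    ∀ T : ℝ, 1 ≤ T → ∀ (J : ℕ), ∀ x ∈ M.K (fun i => max 0 (T * M.wv (M.A c) i)),
      ‖(M.A (φ x) - M.A (φ 1), M.hr φ c T J x)‖ ≤ R * T := by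
  obtain ⟨C₁, hC₁, h1⟩ := M.hr_bound K C
  obtain ⟨C₂, hC₂, h2⟩ := M.A_lip K C
  obtain ⟨C₃, hC₃, h3⟩ := M.ln_K 1 zero_le_one
  obtain ⟨C₄, hC₄, h4⟩ := M.norm_ah_le
  have hw := M.wmax_nonneg
  refine ⟨C₂ * (C₃ * (M.wmax * C₄ + 1) + 1) + 2 * C₁, fun φ hφ c hc hc1 T hT J x hx => ?_⟩
  have e0 : 0 ≤ C₂ * (C₃ * (M.wmax * C₄ + 1) + 1) * T := by positivity
  have e1 : 0 ≤ C₁ * T := by positivity
  refine norm_prod_le_iff.2 ⟨?_, ?_⟩
  · have a1 := (h2 φ hφ 1 x).1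
    rw [one_mul] at a1
    have a2 : ‖M.A c‖ ≤ C₄ :=
      (h4 c).2.trans (mul_le_of_le_one_right (by linarith) (M.ln_le_one hc1))
    have a3 := h3 _ (M.wmax * C₄ * T) (by positivity) (fun i _ => max_le (by positivity) (by
      rw [mul_comm]
      exact mul_le_mul_of_nonneg_right ((le_abs_self _).trans ((M.abs_wv_le _ i).trans
        (mul_le_mul_of_nonneg_left a2 hw))) (by linarith))) x (M.lb_one hx)
    have a4 : C₃ * (M.wmax * C₄ * T + 1) ≤ C₃ * (M.wmax * C₄ * T + T) :=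
      mul_le_mul_of_nonneg_left (by linarith) (by linarith)
    have a5 : C₂ * (M.ln x + 1) ≤ C₂ * (C₃ * (M.wmax * C₄ * T + T) + T) :=
      mul_le_mul_of_nonneg_left (by linarith) (by linarith)
    show ‖M.A (φ x) - M.A (φ 1)‖ ≤ _
    linarith
  · have a1 := h1 φ hφ c hc hc1 T (by linarith) J x
    have a2 : C₁ * (T + 1) ≤ C₁ * (T + T) := mul_le_mul_of_nonneg_left (by linarith) (by linarith)
    show ‖M.hr φ c T J x‖ ≤ _
    linarith

theorem meas_bad {φ : M.G → M.G} (hφ : Measurable φ) (c T J) (a : ℝ) :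
    MeasurableSet {x | M.Phi (M.hr φ c T J x) < a} :=
  measurableSet_lt (M.continuous_Phi.measurable.comp (M.measurable_hr hφ c T J)) measurable_const

theorem tz_E (K C κ δ : ℝ) (hκ : 0 < κ) (hδ : 0 < δ) : ∃ (T₀ : ℝ) (J₀ : ℕ), ∀ T : ℝ, T₀ ≤ T →
    ∀ J : ℕ, J₀ ≤ J → ∀ c ∈ M.u0, ‖c‖ ≤ 1 → ∀ φ, M.MQI K C φ →
      M.mE (M.K (fun i => max 0 (T * M.wv (M.A c) i)) ∩
        {x | M.Phi (M.hr φ c T J x) < T * M.Psi (M.A c) - κ * T}) ≤
        ENNReal.ofReal δ * M.mE (M.K (fun i => max 0 (T * M.wv (M.A c) i))) := by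
  obtain ⟨C', hC', htar⟩ := M.target K C
  obtain ⟨R, hR⟩ := M.sfibre_bound K C
  obtain ⟨CK, hCK, hvol⟩ := M.vol_K
  have hd : (0 : ℝ) ≤ M.d * M.c := by positivity
  obtain ⟨ε, hε, hεκ⟩ : ∃ ε : ℝ, 0 < ε ∧ (M.d * M.c + 2 * C') * ε = κ / 2 :=
    ⟨κ / 2 / (M.d * M.c + 2 * C'), by positivity, mul_div_cancel₀ _ (by positivity)⟩
  obtain ⟨p, hp, hpig⟩ := pigeon (M.V × (Fin M.d → ℝ)) R ε hε
  obtain ⟨N, γ, hγ, hspr⟩ := M.spread (p * δ) (by positivity)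
  have hJ₀ : 1 ≤ ⌈ε⁻¹⌉₊ := Nat.one_le_iff_ne_zero.2 (Nat.ceil_pos.2 (inv_pos.2 hε)).ne'
  obtain ⟨b, hb, htar⟩ := htar N ⌈ε⁻¹⌉₊ hJ₀
  obtain ⟨T₀, hT₀, hlog⟩ := log_small (b + Real.log CK - Real.log γ) b (κ / 2) hb (by positivity)
  refine ⟨T₀, ⌈ε⁻¹⌉₊, fun T hT J hJ c hc hc1 φ hφ => ?_⟩
  have hT1 : 1 ≤ T := hT₀.trans hT
  by_contra hcon
  obtain ⟨P, hPB, hP, hpP, hPg⟩ := hpig M.G M.mE _
    (fun x => (M.A (φ x) - M.A (φ 1), M.hr φ c T J x)) T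
    ((M.K_isLB _).compact.measurableSet.inter (M.meas_bad hφ.1 c T J _))
    (((M.lie_cA.measurable.comp hφ.1).sub_const _).prodMk (M.measurable_hr hφ.1 c T J))
    (by linarith) fun x hx => hR φ hφ.2 c hc hc1 T hT1 J x hx.1
  obtain ⟨m, hm, Y, hY, hγY, hrch⟩ := hspr _ P hP (fun x hx => (hPB hx).1) (by
    rw [ENNReal.ofReal_mul hp.le, mul_assoc]
    exact (mul_le_mul_right (not_le.1 hcon).le _).trans hpP)
  have hεT : 0 ≤ ε * T := by positivity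
  have h1 := htar φ hφ c hc hc1 T hT1 J hJ P (ε * T) (fun i => M.hr φ c T J m i + ε * T) hεT
    (fun i j hij => by simp only [M.hr_wtFun φ c T J m i j hij])
    (fun i => add_nonneg (M.hr_nonneg _ _ _ _ _ _) hεT) (fun x hx i => by
      have a1 := (norm_le_pi_norm _ i).trans (norm_prod_le_iff.1 (hPg x hx m hm)).2
      have a2 := (le_abs_self _).trans a1
      simp only [Prod.snd_sub, Pi.sub_apply] at a2
      linarith) (fun x hx y hy => by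
      have a1 := (norm_prod_le_iff.1 (hPg x hx y hy)).1
      simpa only [Prod.fst_sub, sub_sub_sub_cancel_right] using a1) m Y hY hrch
  have h2 := M.Phi_le_add (r := M.hr φ c T J m) (r' := fun i => M.hr φ c T J m i + ε * T) hεT
    fun _ _ => le_rfl
  have h3 : M.Phi (M.hr φ c T J m) < T * M.Psi (M.A c) - κ * T := (hPB hm).2
  have h4 : M.Phi (fun i => max 0 (T * M.wv (M.A c) i)) = T * M.Psi (M.A c) := by
    rw [Psi, ← M.Phi_smul (by linarith)]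
    congr 1
    funext i
    rw [Pi.smul_apply, smul_eq_mul, mul_max_of_nonneg _ _ (by linarith), mul_zero]
    rfl
  have h5 := (hvol fun i => max 0 (T * M.wv (M.A c) i)).1
  have h6 := hγY.trans h1
  rw [← ENNReal.ofReal_toReal (M.mE_K_ne_top _), ← ENNReal.ofReal_mul hγ.le,
    ENNReal.ofReal_le_ofReal_iff (Real.exp_pos _).le] at h6
  have h7 := (mul_le_mul_of_nonneg_left h5 hγ.le).trans ((mul_left_comm _ _ _).trans_le
    (mul_le_mul_of_nonneg_left h6 (by linarith)))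
  rw [h4, ← Real.exp_log hγ, ← Real.exp_log (show 0 < CK by linarith), ← Real.exp_add,
    ← Real.exp_add, Real.exp_le_exp] at h7
  have h8 : T / ⌈ε⁻¹⌉₊ ≤ ε * T := by
    rw [div_le_iff₀ (Nat.cast_pos.2 hJ₀)]
    have := mul_le_mul_of_nonneg_left (Nat.le_ceil ε⁻¹) hεT
    rwa [mul_right_comm, mul_inv_cancel₀ hε.ne', one_mul] at this
  have h9 := mul_le_mul_of_nonneg_left h8 (show 0 ≤ C' by linarith)
  have h10 := hlog T hT
  have h11 : (M.d * M.c + 2 * C') * ε * T = κ / 2 * T := by rw [hεκ]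
  generalize Real.log (2 + b * T) = Lg at h7 h10
  generalize (⌈ε⁻¹⌉₊ : ℝ) = J₁ at h7 h9
  linarith

end Vale.Agent.P188.Geo
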