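import Vale.Agent.P188.S.Fibre

/-! Part S (sub-project): typed zigzag volume bound. -/

namespace Vale.Agent.P188.Geo
open scoped InnerProductSpace Pointwise
open MeasureTheory
variable (M : Geo)

theorem tz_G (K C κ δ : ℝ) (hκ : 0 < κ) (hδ : 0 < δ) : ∃ (T₀ : ℝ) (J₀ : ℕ), ∀ T : ℝ, T₀ ≤ T →
    ∀ J : ℕ, J₀ ≤ J → ∀ c ∈ M.u0, ‖c‖ ≤ 1 → ∀ φ, M.MQI K C φ → ∀ S : Set M.G, MeasurableSet S →
      volume (S ∩ {x | M.Phi (M.hr φ c T J x) < T * M.Psi (M.A c) - κ * T}) ≤
        ENNReal.ofReal δ * volume (S * M.K (fun i => max 0 (T * M.wv (M.A c) i))) := by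
  obtain ⟨T₀, J₀, h⟩ := M.tz_E K C κ δ hκ hδ
  refine ⟨T₀, J₀, fun T hT J hJ c hc hc1 φ hφ S hS => ?_⟩
  have : SFinite M.mE := inferInstanceAs (SFinite (subMu M.e))
  set B := M.K (fun i => max 0 (T * M.wv (M.A c) i)) with hB
  have hBm : MeasurableSet B := (M.K_isLB _).compact.measurableSet
  set E := S ∩ {x | M.Phi (M.hr φ c T J x) < T * M.Psi (M.A c) - κ * T} with hE
  have hEm : MeasurableSet E := hS.inter (M.meas_bad hφ.1 c T J _)
  have hW : MeasurableSet {q : M.G × M.G | q.2 ∈ B ∧ q.1 * q.2 ∈ E} :=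
    (hBm.preimage measurable_snd).inter (hEm.preimage (measurable_fst.mul measurable_snd))
  have h1 : (volume.prod M.mE) {q : M.G × M.G | q.2 ∈ B ∧ q.1 * q.2 ∈ E} = M.mE B * volume E := by
    rw [Measure.prod_apply_symm hW, mul_comm, ← lintegral_indicator_const hBm]
    refine lintegral_congr fun l => ?_
    by_cases hl : l ∈ B
    · rw [Set.indicator_of_mem hl, ← measure_preimage_mul_right volume l E]
      congr 1
      ext x
      simp [hl]
    · rw [Set.indicator_of_notMem hl]
      convert measure_empty (μ := (volume : Measure M.G))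
      ext x
      simp [hl]
  have h2 : (volume.prod M.mE) {q : M.G × M.G | q.2 ∈ B ∧ q.1 * q.2 ∈ E} ≤
      ENNReal.ofReal δ * M.mE B * volume (S * B) := by
    rw [Measure.prod_apply hW]
    refine le_trans (lintegral_mono fun x => ?_) (lintegral_indicator_const_le (S * B) _)
    by_cases hx : x ∈ S * B
    · rw [Set.indicator_of_mem hx]
      refine le_trans (measure_mono fun l hl => ?_)
        (h T hT J hJ c hc hc1 _ (MQI.comp_mul_left M hφ x))
      refine ⟨hl.1, ?_⟩
      have h3 : M.hr (fun y => φ (x * y)) c T J l = M.hr φ c T J (x * l) := by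
        funext i
        simp only [hr, mul_assoc]
      show M.Phi (M.hr (fun y => φ (x * y)) c T J l) < _
      rw [h3]
      exact hl.2.2
    · rw [Set.indicator_of_notMem hx]
      refine le_of_eq ?_
      convert measure_empty (μ := M.mE)
      refine Set.eq_empty_of_forall_notMem fun l hl => hx ⟨x * l, hl.2.1, l⁻¹, ?_, by simp⟩
      have := M.inv_mem (M.K_isLB _).sc (M.K_tame _) (M.lb_one hl.1)
      rwa [one_smul] at this
  rw [h1, mul_comm (ENNReal.ofReal δ), mul_assoc] at h2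
  exact (ENNReal.mul_le_mul_iff_right (M.mE_K_ne_zero _) (M.mE_K_ne_top _)).1 h2

end Vale.Agent.P188.Geo
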