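import Vale.Agent.P188.S.Defs

/-! Image paths of letter moves: up along the segment, jump, down. -/

namespace Vale.Agent.P188.Geo
open scoped InnerProductSpace Pointwise
open MeasureTheory
variable (M : Geo)

theorem wmax_nonneg : 0 ≤ M.wmax := Finset.sum_nonneg fun _ _ => norm_nonneg _

theorem abs_wv_le (v : M.V) (i) : |M.wv v i| ≤ M.wmax * ‖v‖ :=
  (abs_real_inner_le_norm _ _).trans (mul_le_mul_of_nonneg_right
    (Finset.single_le_sum (f := fun i => ‖M.wt i‖) (fun _ _ => norm_nonneg _)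
      (Finset.mem_univ i)) (norm_nonneg _))

theorem spath_wv_sub (v w : M.V) (i) : M.wv (v - w) i = M.wv v i - M.wv w i :=
  inner_sub_right _ _ _

theorem spath_wv_smul (t : ℝ) (v : M.V) (i) : M.wv (t • v) i = t * M.wv v i :=
  inner_smul_right _ _ _

theorem hr_wtFun (φ c T J x) : M.WtFun (M.hr φ c T J x) := fun i j h => by
  simp only [hr, wv, h]

theorem le_hr (φ c T J x i) (j : Fin (J + 1)) :
    M.wv (M.A (φ (x * (((j : ℝ) * T / J) • c))) - M.A (φ x)) i ≤ M.hr φ c T J x i :=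
  le_ciSup (f := fun j : Fin (J + 1) =>
    M.wv (M.A (φ (x * (((j : ℝ) * T / J) • c))) - M.A (φ x)) i) (Finite.bddAbove_range _) j

theorem hr_nonneg (φ c T J x i) : 0 ≤ M.hr φ c T J x i := by
  have := M.le_hr φ c T J x i 0
  simpa [← one_def, wv] using this

theorem measurable_hr {φ : M.G → M.G} (hφ : Measurable φ) (c T J) :
    Measurable (M.hr φ c T J) := by
  refine measurable_pi_lambda _ fun i => Measurable.iSup fun j => ?_
  have h1 : Measurable fun v : M.V => M.wv v i :=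
    (continuous_const.inner continuous_id).measurable
  exact h1.comp ((M.lie_cA.measurable.comp (hφ.comp (measurable_mul_const _))).sub
    (M.lie_cA.measurable.comp hφ))

theorem continuous_Phi : Continuous M.Phi := by
  refine (LipschitzWith.of_le_add_mul' (M.d * M.c) fun r r' => ?_).continuous
  refine M.Phi_le_add dist_nonneg fun i _ => ?_
  have := (dist_le_pi_dist r r' i)
  rw [Real.dist_eq] at this
  linarith [le_abs_self (r i - r' i)]

theorem spath_ln {c : M.G} (hc : c ∈ M.u0) (h1 : ‖c‖ ≤ 1) (t : ℝ) : M.ln (t • c) ≤ |t| + 1 := by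
  refine (M.ln_tame (Or.inr (M.u0.smul_mem t hc))).trans ?_
  rw [norm_smul, Real.norm_eq_abs]
  linarith [mul_le_of_le_one_right (abs_nonneg t) h1]

theorem spath_add {c : M.G} (hc : c ∈ M.u0) (x : M.G) (s t : ℝ) :
    x * (t • c) = x * (s • c) * ((t - s) • c) := by
  rw [mul_assoc, M.smul_mul_smul (Or.inr hc), add_sub_cancel]

theorem hr_bound (K C : ℝ) : ∃ C' : ℝ, 1 ≤ C' ∧ ∀ φ, IsQI M.Q M.Q K C φ → ∀ c ∈ M.u0, ‖c‖ ≤ 1 →
    ∀ T : ℝ, 0 ≤ T → ∀ (J : ℕ) x, ‖M.hr φ c T J x‖ ≤ C' * (T + 1) := by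
  obtain ⟨C', hC', h⟩ := M.A_lip K C
  have hw := M.wmax_nonneg
  refine ⟨1 + M.wmax * C' * 2, by nlinarith, fun φ hφ c hc h1 T hT J x => ?_⟩
  refine (pi_norm_le_iff_of_nonneg (by positivity)).2 fun i => ?_
  rw [Real.norm_of_nonneg (M.hr_nonneg _ _ _ _ _ _)]
  refine ciSup_le fun j => (le_abs_self _).trans ((M.abs_wv_le _ i).trans ?_)
  have h2 := (h φ hφ x (((j : ℝ) * T / J) • c)).1
  have h3 := M.spath_ln hc h1 ((j : ℝ) * T / J)
  have h4 : (j : ℝ) * T / J ≤ T := by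
    refine div_le_of_le_mul₀ (Nat.cast_nonneg _) hT ?_
    rw [mul_comm]
    exact mul_le_mul_of_nonneg_left (Nat.cast_le.2 (Nat.lt_succ_iff.1 j.2)) hT
  rw [abs_of_nonneg (by positivity)] at h3
  have h5 : C' * (M.ln (((j : ℝ) * T / J) • c) + 1) ≤ C' * (2 * (T + 1)) :=
    mul_le_mul_of_nonneg_left (by linarith) (by linarith)
  have h6 := mul_le_mul_of_nonneg_left (h2.trans h5) hw
  nlinarith

theorem near_hr (K C : ℝ) : ∃ C' : ℝ, 1 ≤ C' ∧ ∀ φ, IsQI M.Q M.Q K C φ → ∀ c ∈ M.u0, ‖c‖ ≤ 1 →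
    ∀ T : ℝ, 0 < T → ∀ J : ℕ, 1 ≤ J → ∀ x, ∀ t ∈ Set.Icc 0 T, ∀ i,
      M.wv (M.A (φ (x * (t • c))) - M.A (φ x)) i ≤ M.hr φ c T J x i + C' * (T / J + 1) := by
  obtain ⟨C', hC', h⟩ := M.A_lip K C
  have hw := M.wmax_nonneg
  refine ⟨1 + M.wmax * C' * 2, by nlinarith, fun φ hφ c hc h1 T hT J hJ x t ht i => ?_⟩
  have hJ0 : (0 : ℝ) < J := Nat.cast_pos.2 hJ
  have h0 : 0 ≤ t * J / T := by have := ht.1; positivity
  have hj : ⌊t * J / T⌋₊ < J + 1 := by
    refine Nat.lt_succ_iff.2 (Nat.floor_le_of_le ?_)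
    rw [div_le_iff₀ hT, mul_comm]
    exact mul_le_mul_of_nonneg_left ht.2 hJ0.le
  have h2 := M.le_hr φ c T J x i ⟨_, hj⟩
  set s : ℝ := ((⟨⌊t * J / T⌋₊, hj⟩ : Fin (J + 1)) : ℝ) * T / J with hs
  have h3 : |t - s| ≤ T / J := by
    have e1 := Nat.floor_le h0
    have e2 := Nat.lt_floor_add_one (t * J / T)
    have e3 : t - s = (t * J / T - ⌊t * J / T⌋₊) * (T / J) := by
      rw [hs]
      field_simp
    rw [e3, abs_of_nonneg (mul_nonneg (by linarith) (by positivity))]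
    exact mul_le_of_le_one_left (by positivity) (by linarith)
  have h4 := (h φ hφ (x * (s • c)) ((t - s) • c)).1
  rw [← M.spath_add hc] at h4
  have h5 := M.spath_ln hc h1 (t - s)
  have h6 : C' * (M.ln ((t - s) • c) + 1) ≤ C' * (2 * (T / J + 1)) :=
    mul_le_mul_of_nonneg_left (by have := div_pos hT hJ0; linarith) (by linarith)
  have h7 := (le_abs_self _).trans ((M.abs_wv_le _ i).trans
    (mul_le_mul_of_nonneg_left (h4.trans h6) hw))
  rw [spath_wv_sub] at h2 h7 ⊢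
  have := div_pos hT hJ0
  nlinarith

theorem spath_jump {K C φ} (h : IsQI M.Q M.Q K C φ) (x y : M.G) {a : ℝ}
    (ha : M.ln (x⁻¹ * y) ≤ a) : M.ln ((φ x)⁻¹ * φ y) ≤ |K| * a + |C| := by
  have := IsQI.ln_le M h x (x⁻¹ * y)
  rw [mul_inv_cancel_left] at this
  have h1 := mul_le_mul (le_abs_self K) ha (M.ln_nonneg _) (abs_nonneg K)
  linarith [le_abs_self C]

theorem spath_up {K C φ} (h : IsQI M.Q M.Q K C φ) {c : M.G} (hc : c ∈ M.u0) (h1 : ‖c‖ ≤ 1)
    {T ℓ : ℝ} (hT : 0 ≤ T) {J : ℕ} (hJ : 1 ≤ J) (hℓ : |K| * (T / J + 1) + |C| ≤ ℓ) {H : Set M.G}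
    {x : M.G} (hx : ∀ t ∈ Set.Icc 0 T, φ (x * (t • c)) ∈ H) :
    Rch H {g | M.ln g ≤ ℓ} J (φ x) (φ (x * (T • c))) := by
  have hJ0 : (0 : ℝ) < J := Nat.cast_pos.2 hJ
  have hm : ∀ j : ℕ, j ≤ J → (j : ℝ) * (T / J) ∈ Set.Icc 0 T := fun j hj => ⟨by positivity, by
    rw [mul_div_assoc', div_le_iff₀ hJ0, mul_comm]
    exact mul_le_mul_of_nonneg_left (Nat.cast_le.2 hj) hT⟩
  have key : ∀ j : ℕ, j ≤ J →
      Rch H {g | M.ln g ≤ ℓ} j (φ x) (φ (x * (((j : ℝ) * (T / J)) • c))) := by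
    intro j
    induction j with
    | zero =>
      intro _
      have := hx 0 ⟨le_rfl, hT⟩
      simp only [Nat.cast_zero, zero_mul, zero_smul, ← one_def, mul_one] at this ⊢
      exact .refl this
    | succ j ih =>
      intro hj
      refine (ih (by omega)).trans (Rch.single' (hx _ (hm j (by omega))) ?_ (hx _ (hm _ hj)))
      refine (M.spath_jump h _ _ ?_).trans hℓ
      rw [M.spath_add hc x ((j : ℝ) * (T / J)) (((j + 1 : ℕ) : ℝ) * (T / J)), inv_mul_cancel_left]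
      refine (M.spath_ln hc h1 _).trans (le_of_eq ?_)
      rw [Nat.cast_succ, add_mul, add_sub_cancel_left, one_mul, abs_of_nonneg (by positivity)]
  have := key J le_rfl
  rwa [mul_div_cancel₀ _ hJ0.ne'] at this

theorem spath_step (K C : ℝ) : ∃ C' : ℝ, 1 ≤ C' ∧ ∀ φ, IsQI M.Q M.Q K C φ → ∀ c ∈ M.u0, ‖c‖ ≤ 1 →
    ∀ T : ℝ, 0 ≤ T → ∀ J : ℕ, 1 ≤ J → ∀ (H : Set M.G) (x : M.G),
      ∀ b ∈ M.Seg (fun i => max 0 (T * M.wv (M.A c) i)),
      (∀ t ∈ Set.Icc 0 T, φ (x * (t • c)) ∈ H) → (∀ t ∈ Set.Icc 0 T, φ (x * b * (t • c)) ∈ H) →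
      Rch H {g | M.ln g ≤ C' * (T / J + Real.log (2 + C' * T))} (2 * J + 1) (φ x) (φ (x * b)) := by
  obtain ⟨C₁, hC₁, hconj⟩ := M.ln_conj_K 1 zero_le_one
  obtain ⟨C₂, hC₂, hZ⟩ := M.mem_Z
  have hK := abs_nonneg K
  have hC := abs_nonneg C
  set C' := C₂ + |K| * C₁ + 2 * |K| + 2 * |C| with hC'
  have e0 : 0 ≤ |K| * C₁ := by positivity
  refine ⟨C', by linarith, fun φ hφ c hc h1 T hT J hJ H x b hb hx hxb => ?_⟩
  have hJ0 : (0 : ℝ) < J := Nat.cast_pos.2 hJ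
  have hTJ : 0 ≤ T / J := by positivity
  have hl := len_log (t := C' * T) (mul_nonneg (by linarith) hT)
  have hl2 : Real.log (2 + C₂ * T) ≤ Real.log (2 + C' * T) :=
    Real.log_le_log (by positivity) (by nlinarith)
  set Lg := Real.log (2 + C' * T)
  have hℓ : |K| * (T / J + 1) + |C| ≤ C' * (T / J + Lg) := by rw [hC']; nlinarith
  have h0 : ∀ y : M.G, y * (0 : ℝ) • c = y := fun y => by rw [zero_smul, ← one_def, mul_one]
  obtain ⟨i, t, hi, ht, rfl⟩ := hb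
  rcases le_total (T * M.wv (M.A c) i) 0 with h | h
  · have a1 := hx 0 ⟨le_rfl, hT⟩
    have a2 := hxb 0 ⟨le_rfl, hT⟩
    rw [h0] at a1 a2
    refine (Rch.single' a1 ?_ a2).mono (by omega)
    refine (M.spath_jump hφ _ _ (a := T / J + 1) ?_).trans hℓ
    rw [inv_mul_cancel_left]
    refine (M.ln_le_one ?_).trans (by linarith)
    simp only [max_eq_left h, Real.exp_zero, one_smul, norm_smul, len_norm_X, mul_one]
    exact ht
  · have h2 := M.spath_up hφ hc h1 hT hJ hℓ hx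
    have h3 := (M.spath_up hφ hc h1 hT hJ hℓ hxb).symm fun g hg => (M.ln_inv g).trans_le hg
    refine ((h2.trans (Rch.single' h2.right ?_ h3.left)).trans h3).mono (by omega)
    have h4 : T • c ∈ M.Z (C₂ * T) := by
      refine M.Z_mono (by positivity) ?_ (hZ _ (M.u0.smul_mem T hc))
      rw [norm_smul, Real.norm_of_nonneg hT]
      exact mul_le_mul_of_nonneg_left (mul_le_of_le_one_right hT h1) (by linarith)
    have h5 := hconj (M.wv (M.A (T • c))) (C₂ * T) 0 (by positivity) le_rfl (M.wv_wtFun _) _ h4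
      (fun _ _ => by rw [add_zero]) (t • Real.exp (max 0 (T * M.wv (M.A c) i)) • M.X i) (by
        rw [one_smul, smul_smul]
        refine M.X_mem_K hi ?_
        rw [max_eq_right h, map_smul, spath_wv_smul, abs_mul, abs_of_pos (Real.exp_pos _)]
        exact mul_le_of_le_one_left (Real.exp_pos _).le ht)
    refine (M.spath_jump hφ _ _ (a := C₁ * Lg) ?_).trans (by rw [hC']; nlinarith)
    refine le_trans (le_of_eq ?_) (h5.trans (mul_le_mul_of_nonneg_left (by linarith) (by linarith)))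
    congr 1
    group

end Vale.Agent.P188.Geo
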