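import Vale.Agent.P188.S.Defs

/-! Most points of a dense set return to it along a segment.
`prune`: let `E` be the bad part of `U` and `h a = volume {t ∈ Icc 0 β | a * t • V ∈ E}`.  By
Tonelli and right invariance `∫ h dmE = β * mE E`; `h` vanishes off `C • S` (`mul_mem`), and
`h a ≤ η β` everywhere (if `a * t₀ • V = m ∈ E` then `a * t • V = m * (t - t₀) • V`).
`ret`: `prune` with `β = 1` and Tonelli.  `tree`: induction on `n`, `prune`,
`measurePreserving_piFinSuccAbove`. -/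

namespace Vale.Agent.P188.Geo
open scoped InnerProductSpace Pointwise
open MeasureTheory
variable (M : Geo)

theorem sprune_cont (V : M.G) : Measurable fun p : M.G × ℝ => p.1 * (p.2 • V) := by
  have : SecondCountableTopology M.G := inferInstanceAs (SecondCountableTopology (Eu M.d))
  exact (continuous_fst.mul (continuous_snd.smul continuous_const)).measurable

theorem sprune_meas {U : Set M.G} (hU : MeasurableSet U) (V : M.G) {I : Set ℝ}
    (hI : MeasurableSet I) : MeasurableSet {p : M.G × ℝ | p.2 ∈ I ∧ p.1 * (p.2 • V) ∈ U} :=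
  (measurable_snd hI).inter (M.sprune_cont V hU)

theorem meas_prune {U : Set M.G} (hU : MeasurableSet U) (V : M.G) (β : ℝ) (a : ENNReal) :
    MeasurableSet {m ∈ U | a ≤ volume {t ∈ Set.Icc (-β) β | m * (t • V) ∈ U}} :=
  hU.inter (measurableSet_le measurable_const
    (measurable_measure_prodMk_left (ν := volume) (M.sprune_meas hU V measurableSet_Icc)))

theorem sprune_tonelli {E : Set M.G} (hE : MeasurableSet E) {V : M.G} (hV : V ∈ M.e) {I : Set ℝ}
    (hI : MeasurableSet I) :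
    ∫⁻ a, volume {t ∈ I | a * (t • V) ∈ E} ∂M.mE = M.mE E * volume I := by
  have : SFinite M.mE := inferInstanceAs (SFinite (subMu M.e))
  have hP := M.sprune_meas hE V hI
  refine (Measure.prod_apply (μ := M.mE) (ν := volume) hP).symm.trans ?_
  rw [Measure.prod_apply_symm hP, ← lintegral_indicator_const hI]
  refine lintegral_congr fun t => ?_
  by_cases ht : t ∈ I
  · rw [Set.indicator_of_mem ht, ← M.mE_preimage_mul_right (M.e.smul_mem t hV) E]
    congr 1
    ext a
    simp [ht]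
  · rw [Set.indicator_of_notMem ht]
    convert measure_empty (μ := M.mE)
    ext a
    simp [ht]

theorem sprune_fin {S : Set M.G} (hS : M.IsLB S) : M.mE S ≠ ⊤ := by
  have : IsFiniteMeasureOnCompacts M.mE :=
    inferInstanceAs (IsFiniteMeasureOnCompacts (subMu M.e))
  exact hS.compact.measure_lt_top.ne

theorem prune (C₁ p : ℝ) (hC : 0 ≤ C₁) (hp : 0 < p) : ∃ η : ℝ, 0 < η ∧ ∀ S, M.IsLB S → S ⊆ M.e →
    ∀ V ∈ C₁ • S, ∀ β : ℝ, 0 < β → β ≤ 1 → ∀ U ⊆ S, MeasurableSet U →
      ENNReal.ofReal p * M.mE S ≤ M.mE U → ENNReal.ofReal η * M.mE S ≤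
        M.mE {m ∈ U | ENNReal.ofReal (η * β) ≤ volume {t ∈ Set.Icc (-β) β | m * (t • V) ∈ U}} := by
  obtain ⟨C', hC', hmul⟩ := M.mul_mem (C₁ + 1) (by linarith)
  set D : ℝ := |C'| ^ Module.finrank ℝ M.e with hD
  have hD0 : 0 ≤ D := by positivity
  refine ⟨p / (1 + D), by positivity, fun S hS hSe V hV β hβ hβ1 U hU hUm hpU => ?_⟩
  set η := p / (1 + D) with hη
  have hη0 : 0 < η := by positivity
  have hVe : V ∈ M.e := by
    obtain ⟨v, hv, rfl⟩ := hV
    exact M.e.smul_mem _ (hSe hv)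
  set G := {m ∈ U | ENNReal.ofReal (η * β) ≤ volume {t ∈ Set.Icc (-β) β | m * (t • V) ∈ U}}
  have hG : MeasurableSet G := M.meas_prune hUm V β _
  have h1 := M.sprune_tonelli (hUm.diff hG) hVe (measurableSet_Icc (a := 0) (b := β))
  have h2 : ∀ a, volume {t ∈ Set.Icc 0 β | a * (t • V) ∈ U \ G} ≤
      (C' • S).indicator (fun _ => ENNReal.ofReal (η * β)) a := by
    intro a
    rcases Set.eq_empty_or_nonempty {t ∈ Set.Icc 0 β | a * (t • V) ∈ U \ G} with h | ⟨t₀, ht₀, hm⟩
    · rw [h, measure_empty]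
      exact zero_le
    have key : ∀ t : ℝ, a * (t₀ • V) * (t • V) = a * ((t₀ + t) • V) := fun t => by
      rw [mul_assoc, M.smul_mul_smul (Or.inl (M.A_e hVe))]
    have ha : a ∈ C' • S := by
      have := hmul S hS (M.tame_of_e hSe) _ (hS.sc.subset_smul (by linarith) (hU hm.1))
        ((-t₀) • V) (hS.sc.smul_mem_smul hC hV (by
          rw [abs_neg, abs_of_nonneg ht₀.1]
          nlinarith [ht₀.2]))
      rwa [key, add_neg_cancel, zero_smul, ← M.one_def, mul_one] at this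
    rw [Set.indicator_of_mem ha]
    have h3 : volume {t ∈ Set.Icc (-β) β | a * (t₀ • V) * (t • V) ∈ U} ≤
        ENNReal.ofReal (η * β) := le_of_lt (not_le.1 fun h => hm.2 ⟨hm.1, h⟩)
    refine le_trans ?_ h3
    rw [← measure_preimage_add_right volume t₀]
    refine measure_mono fun t ht => ⟨⟨?_, ?_⟩, ?_⟩
    · linarith [ht.1.1, ht₀.2]
    · linarith [ht.1.2, ht₀.1]
    · rw [key, add_comm]
      exact ht.2.1
  have h4 : M.mE (U \ G) * ENNReal.ofReal β ≤
      ENNReal.ofReal (η * D) * M.mE S * ENNReal.ofReal β := by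
    have := (lintegral_mono (μ := M.mE) h2).trans (lintegral_indicator_const_le _ _)
    rw [h1, Real.volume_Icc, sub_zero, mE, subMu_smul _ _ (by linarith), ← mE, ← hD,
      ENNReal.ofReal_mul hη0.le] at this
    refine this.trans (le_of_eq ?_)
    rw [ENNReal.ofReal_mul hη0.le]
    ring
  have h5 := (ENNReal.mul_le_mul_iff_left (by simpa using hβ) ENNReal.ofReal_ne_top).1 h4
  have h6 : ENNReal.ofReal η * M.mE S + ENNReal.ofReal (η * D) * M.mE S ≤
      M.mE G + ENNReal.ofReal (η * D) * M.mE S := by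
    rw [← add_mul, ← ENNReal.ofReal_add hη0.le (by positivity),
      show η + η * D = p by rw [hη]; field_simp]
    refine hpU.trans ((measure_mono fun x hx => ?_).trans
      ((measure_union_le G (U \ G)).trans (add_le_add_right h5 _)))
    by_cases h : x ∈ G
    · exact Or.inl h
    · exact Or.inr ⟨hx, h⟩
  exact (ENNReal.add_le_add_iff_right
    (ENNReal.mul_ne_top ENNReal.ofReal_ne_top (M.sprune_fin hS))).1 h6

theorem ret (p : ℝ) (hp : 0 < p) : ∃ η : ℝ, 0 < η ∧ ∀ S, M.IsLB S → S ⊆ M.e → M.mE S ≠ 0 →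
    ∀ V ∈ S, ∀ U ⊆ S, MeasurableSet U → ENNReal.ofReal p * M.mE S ≤ M.mE U →
      ENNReal.ofReal η ≤ volume {s ∈ Set.Icc (-1 : ℝ) 1 |
        ENNReal.ofReal η * M.mE S ≤ M.mE {m ∈ U | m * (s • V) ∈ U}} := by
  have : SFinite M.mE := inferInstanceAs (SFinite (subMu M.e))
  obtain ⟨η₀, h0, hpr⟩ := M.prune 1 p zero_le_one hp
  refine ⟨η₀ * η₀ / 3, by positivity, fun S hS hSe hS0 V hV U hU hUm hpU => ?_⟩
  set η := η₀ * η₀ / 3 with hη
  have hη0 : 0 < η := by positivity
  have h1 := hpr S hS hSe V (M.lb_one hV) 1 one_pos le_rfl U hU hUm hpU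
  rw [mul_one] at h1
  set G := {m ∈ U | ENNReal.ofReal η₀ ≤ volume {t ∈ Set.Icc (-1 : ℝ) 1 | m * (t • V) ∈ U}}
  have hG : MeasurableSet G := M.meas_prune hUm V 1 _
  set A := {s ∈ Set.Icc (-1 : ℝ) 1 |
    ENNReal.ofReal η * M.mE S ≤ M.mE {m ∈ U | m * (s • V) ∈ U}}
  have hP : MeasurableSet {p : M.G × ℝ | p.1 ∈ U ∧ p.2 ∈ Set.Icc (-1 : ℝ) 1 ∧
      p.1 * (p.2 • V) ∈ U} := (measurable_fst hUm).inter (M.sprune_meas hUm V measurableSet_Icc)
  have h2 : ENNReal.ofReal η₀ * M.mE G ≤ (M.mE.prod volume) {p : M.G × ℝ | p.1 ∈ U ∧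
      p.2 ∈ Set.Icc (-1 : ℝ) 1 ∧ p.1 * (p.2 • V) ∈ U} := by
    rw [Measure.prod_apply hP, ← lintegral_indicator_const hG]
    refine lintegral_mono fun m => ?_
    by_cases hm : m ∈ G
    · rw [Set.indicator_of_mem hm]
      exact hm.2.trans (measure_mono fun t ht => ⟨hm.1, ht⟩)
    · rw [Set.indicator_of_notMem hm]
      exact zero_le
  have h3 : (M.mE.prod volume) {p : M.G × ℝ | p.1 ∈ U ∧
      p.2 ∈ Set.Icc (-1 : ℝ) 1 ∧ p.1 * (p.2 • V) ∈ U} ≤
      M.mE S * volume A + ENNReal.ofReal η * M.mE S * ENNReal.ofReal 2 := by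
    rw [Measure.prod_apply_symm hP]
    refine (lintegral_mono (g := fun s => A.indicator (fun _ => M.mE S) s +
      (Set.Icc (-1 : ℝ) 1).indicator (fun _ => ENNReal.ofReal η * M.mE S) s) fun s => ?_).trans ?_
    · by_cases hs : s ∈ Set.Icc (-1 : ℝ) 1
      · by_cases hA : s ∈ A
        · simp only [Set.indicator_of_mem hA]
          exact le_add_right (measure_mono fun m hm => hU hm.1)
        · simp only [Set.indicator_of_mem hs]
          refine le_add_left (le_trans (measure_mono fun m hm => ?_)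
            (le_of_lt (not_le.1 fun h => hA ⟨hs, h⟩)))
          exact ⟨hm.1, hm.2.2⟩
      · refine le_trans (le_of_eq ?_) zero_le
        convert measure_empty (μ := M.mE)
        exact Set.eq_empty_of_forall_notMem fun m hm => hs hm.2.1
    · rw [lintegral_add_right _ (measurable_const.indicator measurableSet_Icc),
        lintegral_indicator_const measurableSet_Icc, Real.volume_Icc,
        show (1 : ℝ) - -1 = 2 by norm_num]
      exact add_le_add_left (lintegral_indicator_const_le _ _) _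
  have h4 : M.mE S * ENNReal.ofReal η + ENNReal.ofReal η * M.mE S * ENNReal.ofReal 2 ≤
      M.mE S * volume A + ENNReal.ofReal η * M.mE S * ENNReal.ofReal 2 := by
    refine le_trans (le_of_eq ?_) ((mul_le_mul_right h1 _).trans (h2.trans h3))
    rw [← mul_assoc, ← ENNReal.ofReal_mul h0.le, show η₀ * η₀ = η + η * 2 by rw [hη]; ring,
      ENNReal.ofReal_add hη0.le (by positivity), ENNReal.ofReal_mul hη0.le]
    ring
  have hfin := M.sprune_fin hS
  exact (ENNReal.mul_le_mul_iff_right hS0 hfin).1 ((ENNReal.add_le_add_iff_right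
    (ENNReal.mul_ne_top (ENNReal.mul_ne_top ENNReal.ofReal_ne_top hfin)
      ENNReal.ofReal_ne_top)).1 h4)

theorem sprune_slice {X Y : Type*} [MeasurableSpace X] [MeasurableSpace Y] (μ : Measure X)
    (ν : Measure Y) [SFinite ν] (s : Set (X × Y)) :
    ∫⁻ x, ν (Prod.mk x ⁻¹' s) ∂μ ≤ μ.prod ν s := by
  rw [← measure_toMeasurable s, Measure.prod_apply (measurableSet_toMeasurable _ _)]
  exact lintegral_mono fun x => measure_mono (Set.preimage_mono (subset_toMeasurable _ _))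

theorem tree (C₁ : ℝ) (hC : 0 ≤ C₁) (n : ℕ) : ∀ p : ℝ, 0 < p → ∃ γ : ℝ, 0 < γ ∧ ∀ S, M.IsLB S →
    S ⊆ M.e → ∀ V : Fin n → M.G, (∀ i, V i ∈ C₁ • S) → ∀ β : ℝ, 0 < β → β ≤ 1 → ∀ U ⊆ S,
      MeasurableSet U → ENNReal.ofReal p * M.mE S ≤ M.mE U → ∃ U' ⊆ U, MeasurableSet U' ∧
        ENNReal.ofReal γ * M.mE S ≤ M.mE U' ∧ ∀ m ∈ U', ENNReal.ofReal (γ * β ^ n) ≤
          volume {t : Fin n → ℝ | (∀ i, |t i| ≤ β) ∧ Chain U m (List.ofFn fun i => t i • V i)} := by
  intro p hp
  induction n with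
  | zero =>
    refine ⟨min p 1, by positivity, fun S _ _ V _ β _ _ U _ hUm hpU => ⟨U, le_rfl, hUm,
      (mul_le_mul_left (ENNReal.ofReal_le_ofReal (min_le_left _ _)) _).trans hpU, fun m hm => ?_⟩⟩
    have : {t : Fin 0 → ℝ | (∀ i, |t i| ≤ β) ∧ Chain U m (List.ofFn fun i => t i • V i)} =
        Set.univ := Set.eq_univ_of_forall fun t => ⟨fun i => i.elim0, by
          rw [List.ofFn_zero]; exact hm⟩
    rw [this, volume_pi, Measure.pi_univ, Finset.univ_eq_empty, Finset.prod_empty, pow_zero,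
      mul_one]
    exact ENNReal.ofReal_le_one.2 (min_le_right _ _)
  | succ n ih =>
    obtain ⟨γ, hγ, ih⟩ := ih
    obtain ⟨η, hη, hpr⟩ := M.prune C₁ γ hC hγ
    refine ⟨min η (γ * η), by positivity, fun S hS hSe V hV β hβ hβ1 U hU hUm hpU => ?_⟩
    obtain ⟨U₁, h1, h2, h3, h4⟩ := ih S hS hSe (fun i => V i.succ) (fun i => hV _) β hβ hβ1 U hU
      hUm hpU
    refine ⟨_, fun m hm => h1 hm.1, M.meas_prune h2 (V 0) β _,
      (mul_le_mul_left (ENNReal.ofReal_le_ofReal (min_le_left _ _)) _).trans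
        (hpr S hS hSe (V 0) (hV 0) β hβ hβ1 U₁ (h1.trans hU) h2 h3), fun m hm => ?_⟩
    have hA : MeasurableSet {t ∈ Set.Icc (-β) β | m * (t • V 0) ∈ U₁} :=
      measurable_prodMk_left (M.sprune_meas h2 (V 0) measurableSet_Icc)
    let P : Set (ℝ × (Fin n → ℝ)) := {q | (q.1 ∈ Set.Icc (-β) β ∧ m * (q.1 • V 0) ∈ U₁) ∧
      (∀ i, |q.2 i| ≤ β) ∧ Chain U (m * (q.1 • V 0)) (List.ofFn fun i => q.2 i • V i.succ)}
    have h5 : ENNReal.ofReal (γ * β ^ n) * ENNReal.ofReal (η * β) ≤ volume P := by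
      refine le_trans ?_ (sprune_slice volume volume P)
      refine (mul_le_mul_right hm.2 _).trans ?_
      rw [← lintegral_indicator_const hA]
      refine lintegral_mono fun t => ?_
      by_cases ht : t ∈ {t ∈ Set.Icc (-β) β | m * (t • V 0) ∈ U₁}
      · rw [Set.indicator_of_mem ht]
        exact (h4 _ ht.2).trans (measure_mono fun r hr => ⟨ht, hr⟩)
      · rw [Set.indicator_of_notMem ht]
        exact zero_le
    rw [← (volume_preserving_piFinSuccAbove (fun _ : Fin (n + 1) => ℝ) 0).measure_preimage_equiv,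
      ← ENNReal.ofReal_mul (by positivity)] at h5
    refine le_trans (ENNReal.ofReal_le_ofReal ?_) (h5.trans (measure_mono fun t ht => ?_))
    · calc min η (γ * η) * β ^ (n + 1) ≤ γ * η * β ^ (n + 1) :=
          mul_le_mul_of_nonneg_right (min_le_right _ _) (by positivity)
        _ = _ := by ring
    · obtain ⟨⟨a1, a2⟩, a3, a4⟩ := ht
      refine ⟨fun i => Fin.cases (abs_le.2 a1) (fun i => a3 i) i, ?_⟩
      rw [List.ofFn_succ]
      exact ⟨h1 hm.1, a4⟩

end Vale.Agent.P188.Geo
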