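import Vale.Agent.P188.S.Path

/-! Volume of the set of points reached inside a type class. -/

namespace Vale.Agent.P188.Geo
open scoped InnerProductSpace Pointwise
open MeasureTheory
variable (M : Geo)

theorem starget_nf (K C : ℝ) : ∃ C' : ℝ, 1 ≤ C' ∧ ∀ φ, IsQI M.Q M.Q K C φ → ∀ c ∈ M.u0, ‖c‖ ≤ 1 →
    ∀ T : ℝ, 1 ≤ T → ∀ J₀ J : ℕ, 1 ≤ J₀ → J₀ ≤ J → ∀ (P : Set M.G) (σ : ℝ) (r₀ : Fin M.d → ℝ),
      0 ≤ σ → M.WtFun r₀ → (∀ x ∈ P, ∀ i, M.hr φ c T J x i ≤ r₀ i) →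
      (∀ x ∈ P, ∀ y ∈ P, ‖M.A (φ x) - M.A (φ y)‖ ≤ σ) → ∀ N m z,
      Rch P (M.Seg (fun i => max 0 (T * M.wv (M.A c) i))) N m z →
      (φ m)⁻¹ * φ z ∈ M.K (fun i => r₀ i + C' * (σ + T / J₀ + Real.log (2 + C' * T) +
        Real.log (1 + (N * (2 * J₀ + 1) : ℕ)))) *
        (M.Z (C' * (1 + (N * (2 * J₀ + 1) : ℕ)) * T) ∩ {ζ | ‖M.A ζ‖ ≤ σ}) := by
  obtain ⟨Cs, hCs, hstep⟩ := M.spath_step K C
  obtain ⟨Cn, hCn, hnear⟩ := M.near_hr K C
  obtain ⟨Cp, hCp, hpath⟩ := M.path_nf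
  have hw := M.wmax_nonneg
  have e1 : 0 ≤ Cp * Cs := by positivity
  have e2 : 0 ≤ Cp * (Cs * Cs) := by positivity
  set C' := M.wmax + 2 * Cn + Cs + 2 * Cp + 2 * (Cp * Cs) + Cp * (Cs * Cs) with hC'
  refine ⟨C', by linarith, fun φ hφ c hc h1 T hT J₀ J hJ₀ hJ P σ r₀ hσ hr₀ hP1 hP2 N m z h => ?_⟩
  have hJ0 : (1 : ℝ) ≤ J₀ := Nat.one_le_cast.2 hJ₀
  have hTJ : 0 ≤ T / J₀ := by positivity
  have hTJ1 : T / J₀ ≤ T := div_le_self (by linarith) hJ0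
  have hTJ2 : T / J ≤ T / J₀ :=
    div_le_div_of_nonneg_left (by linarith) (by linarith) (Nat.cast_le.2 hJ)
  have hl := len_log (t := Cs * T) (by positivity)
  have hl1 : Real.log (2 + Cs * T) ≤ 1 + Cs * T := by
    linarith [Real.log_le_sub_one_of_pos (show 0 < 2 + Cs * T by positivity)]
  have hl2 : Real.log (2 + Cs * T) ≤ Real.log (2 + C' * T) :=
    Real.log_le_log (by positivity) (by nlinarith)
  set Lg := Real.log (2 + C' * T)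
  set Ls := Real.log (2 + Cs * T)
  let r₁ : Fin M.d → ℝ := fun i => r₀ i + (M.wmax * σ + Cn * (T / J₀ + 1))
  have hH : ∀ x ∈ P, ∀ t ∈ Set.Icc 0 T,
      φ (x * (t • c)) ∈ {g | ∀ i, M.wv (M.A g - M.A (φ m)) i ≤ r₁ i} := fun x hx t ht i => by
    have a1 := hnear φ hφ c hc h1 T (by linarith) J (by omega) x t ht i
    have a2 := (le_abs_self _).trans ((M.abs_wv_le _ i).trans
      (mul_le_mul_of_nonneg_left (hP2 x hx m h.left) hw))
    have a3 := hP1 x hx i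
    have a4 := mul_le_mul_of_nonneg_left hTJ2 (show 0 ≤ Cn by linarith)
    rw [spath_wv_sub] at a1 a2 ⊢
    simp only [r₁]
    linarith
  have h2 := h.map φ (fun x hx => by
      have := hH x hx 0 ⟨le_rfl, by linarith⟩
      rwa [zero_smul, ← one_def, mul_one] at this)
    fun x hx b hb hxb => hstep φ hφ c hc h1 T (by linarith) J₀ hJ₀ _ x b hb (hH x hx) (hH _ hxb)
  obtain ⟨l, l1, l2, l3, l4⟩ := h2.toList
  have hℓ : 0 ≤ Cs * (T / J₀ + Ls) := by positivity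
  obtain ⟨x, hx, ζ, hζ, hxζ⟩ := hpath l (Cs * (T / J₀ + Ls) + 1) r₁ (by linarith)
    (fun i j hij => by simp only [r₁, hr₀ i j hij])
    (fun b hb => (l2 b hb).trans (by linarith)) fun j _ i _ => by
      have := l3 j i
      rwa [A_mul, add_sub_cancel_left] at this
  have l5 : (l.length : ℝ) ≤ (N * (2 * J₀ + 1) : ℕ) := Nat.cast_le.2 l1
  have l6 : Real.log (1 + l.length) ≤ Real.log (1 + (N * (2 * J₀ + 1) : ℕ)) :=
    Real.log_le_log (by positivity) (by linarith)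
  have l7 : 0 ≤ Real.log (1 + l.length) := Real.log_nonneg (by simp)
  rw [← l4, inv_mul_cancel_left, hxζ]
  refine Set.mul_mem_mul (M.K_mono (fun i _ => ?_) hx) ⟨M.Z_mono (by positivity) ?_ hζ, ?_⟩
  · simp only [r₁]
    set Ln := Real.log (1 + (N * (2 * J₀ + 1) : ℕ))
    have b1 : M.wmax * σ ≤ C' * σ := mul_le_mul_of_nonneg_right (by linarith) hσ
    have b2 : (Cn + Cp * Cs) * (T / J₀) ≤ C' * (T / J₀) :=
      mul_le_mul_of_nonneg_right (by linarith) hTJ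
    have b3 : Cp * Real.log (1 + l.length) ≤ C' * Ln :=
      mul_le_mul (by linarith) l6 l7 (by linarith)
    have b4 : (2 * Cn + 2 * Cp + Cp * Cs) * Ls ≤ C' * Lg :=
      mul_le_mul (by linarith) hl2 (by linarith) (by linarith)
    nlinarith
  · have b1 : Cp * (Cs * (T / J₀ + Ls) + 1) ≤ C' * T := by
      have c1 : Cs * (T / J₀ + Ls) ≤ Cs * (T + (T + Cs * T)) :=
        mul_le_mul_of_nonneg_left (by linarith) (by linarith)
      have c2 : Cp * (Cs * (T / J₀ + Ls) + 1) ≤ Cp * (Cs * (T + (T + Cs * T)) + T) :=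
        mul_le_mul_of_nonneg_left (by linarith) (by linarith)
      have c3 : (Cp + 2 * (Cp * Cs) + Cp * (Cs * Cs)) * T ≤ C' * T :=
        mul_le_mul_of_nonneg_right (by linarith) (by linarith)
      linarith
    calc _ ≤ C' * T * (1 + (N * (2 * J₀ + 1) : ℕ)) :=
          mul_le_mul b1 (by linarith) (by positivity) (by positivity)
      _ = _ := by ring
  · have b1 := hP2 z h.right m h.left
    rw [← l4, A_mul, add_sub_cancel_left, hxζ, A_mul, M.A_e (M.K_sub_e _ hx), zero_add] at b1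
    exact b1

theorem starget_num {C₁ Cv D σ u n a₁ a₂ a₃ L₁ L₂ Lg b P P₀ : ℝ} (hC₁ : 1 ≤ C₁) (hCv : 1 ≤ Cv)
    (hd : 0 ≤ D) (hσ : 0 ≤ σ) (hu : 0 ≤ u) (hn : 0 ≤ n) (g1 : 0 ≤ a₁) (g2 : 0 ≤ a₂) (g3 : 0 ≤ a₃)
    (hl4 : 1 / 2 ≤ L₂) (hl1 : L₁ ≤ Lg) (hl2 : L₂ ≤ Lg)
    (hb : b = C₁ * (1 + n) + a₃ + D * (C₁ * a₁ + a₂) + Cv + D * (C₁ + Cv))
    (h6 : P ≤ P₀ + D * (C₁ * (σ + u + L₁ + a₁) + Cv * (σ + L₂) + a₂)) :
    Cv * L₂ + (a₃ + P) ≤ P₀ + (1 + D * (C₁ + Cv)) * (σ + u) + (b + b * Lg) := by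
  have c0 : 0 ≤ C₁ * (1 + n) := by positivity
  have g4 : 0 ≤ D * (C₁ * a₁ + a₂) := by positivity
  have g5 : 0 ≤ D * (C₁ + Cv) := by positivity
  have c1 : Cv * L₂ ≤ Cv * Lg := mul_le_mul_of_nonneg_left hl2 (by linarith)
  have c2 : C₁ * L₁ ≤ C₁ * Lg := mul_le_mul_of_nonneg_left hl1 (by linarith)
  have c3 : (Cv + D * (C₁ + Cv)) * Lg ≤ b * Lg :=
    mul_le_mul_of_nonneg_right (by linarith) (by linarith)
  have c4 := mul_le_mul_of_nonneg_left (add_le_add c1 c2) hd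
  have c5 : 0 ≤ D * (Cv * u) := by positivity
  linarith

theorem target (K C : ℝ) : ∃ C' : ℝ, 1 ≤ C' ∧ ∀ N J₀ : ℕ, 1 ≤ J₀ → ∃ b : ℝ, 0 ≤ b ∧
    ∀ φ, M.MQI K C φ → ∀ c ∈ M.u0, ‖c‖ ≤ 1 → ∀ T : ℝ, 1 ≤ T → ∀ J : ℕ, J₀ ≤ J →
      ∀ (P : Set M.G) (σ : ℝ) (r₀ : Fin M.d → ℝ), 0 ≤ σ → M.WtFun r₀ → (∀ i, 0 ≤ r₀ i) →
      (∀ x ∈ P, ∀ i, M.hr φ c T J x i ≤ r₀ i) →
      (∀ x ∈ P, ∀ y ∈ P, ‖M.A (φ x) - M.A (φ y)‖ ≤ σ) → ∀ m, ∀ Y ⊆ (M.e : Set M.G),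
      (∀ y ∈ Y, Rch P (M.Seg (fun i => max 0 (T * M.wv (M.A c) i))) N m (m * y)) →
      M.mE Y ≤ ENNReal.ofReal
        (Real.exp (M.Phi r₀ + C' * (σ + T / J₀) + (b + b * Real.log (2 + b * T)))) := by
  obtain ⟨C₁, hC₁, hnf⟩ := M.starget_nf K C
  obtain ⟨Cv, hCv, hvt⟩ := M.vol_transfer K C
  obtain ⟨Ck, hCk, hprod⟩ := M.K_prod
  obtain ⟨CK, hCK, hvol⟩ := M.vol_K
  have hd : (0 : ℝ) ≤ M.d * M.c := by positivity
  refine ⟨1 + M.d * M.c * (C₁ + Cv), by nlinarith, fun N J₀ hJ₀ => ?_⟩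
  set n : ℕ := N * (2 * J₀ + 1) with hn
  have hn0 : (0 : ℝ) ≤ n := Nat.cast_nonneg n
  have g1 : 0 ≤ Real.log (1 + n) := Real.log_nonneg (by linarith)
  have g2 : 0 ≤ Real.log (Ck * (1 + 2)) := Real.log_nonneg (by linarith)
  have g3 : 0 ≤ Real.log CK := Real.log_nonneg hCK
  have g4 : 0 ≤ M.d * M.c * (C₁ * Real.log (1 + n) + Real.log (Ck * (1 + 2))) := by positivity
  have g5 : 0 ≤ M.d * M.c * (C₁ + Cv) := by positivity
  have g6 : C₁ ≤ C₁ * (1 + n) := le_mul_of_one_le_right (by linarith) (by linarith)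
  set b := C₁ * (1 + n) + Real.log CK +
    M.d * M.c * (C₁ * Real.log (1 + n) + Real.log (Ck * (1 + 2))) + Cv + M.d * M.c * (C₁ + Cv)
    with hb
  refine ⟨b, by linarith, fun φ hφ c hc h1 T hT J hJ P σ r₀ hσ hr₀ hr0 hP1 hP2 m Y hY hR => ?_⟩
  have hTJ : 0 ≤ T / J₀ := by positivity
  have hρ : 0 ≤ C₁ * (1 + n) * T := by positivity
  have hl1 : Real.log (2 + C₁ * T) ≤ Real.log (2 + b * T) :=
    Real.log_le_log (by positivity) (by nlinarith)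
  have hl2 : Real.log (2 + C₁ * (1 + n) * T) ≤ Real.log (2 + b * T) :=
    Real.log_le_log (by positivity) (by nlinarith)
  have hl3 := len_log (t := C₁ * T) (by positivity)
  have hl4 := len_log hρ
  set Lg := Real.log (2 + b * T)
  set L₁ := Real.log (2 + C₁ * T) with hL₁
  set L₂ := Real.log (2 + C₁ * (1 + n) * T)
  set r₂ : Fin M.d → ℝ := fun i => r₀ i + C₁ * (σ + T / J₀ + L₁ + Real.log (1 + n)) with hr₂
  have hcomp : IsCompact (M.K r₂ * (M.Z (C₁ * (1 + n) * T) ∩ {ζ | ‖M.A ζ‖ ≤ σ})) :=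
    (M.K_isLB _).compact.mul ((M.Z_isLB _).compact.inter_right
      (isClosed_le M.lie_cA.norm continuous_const))
  have hm : MeasurableSet ((M.e : Set M.G) ∩ (fun y => (φ m)⁻¹ * φ (m * y)) ⁻¹'
      (M.K r₂ * (M.Z (C₁ * (1 + n) * T) ∩ {ζ | ‖M.A ζ‖ ≤ σ}))) :=
    M.e.closed_of_finiteDimensional.measurableSet.inter (hcomp.measurableSet.preimage
      ((hφ.1.comp (measurable_const_mul m)).const_mul _))
  have h2 := hvt φ hφ.2 m (φ m) _ (M.K r₂) _ σ hm Set.inter_subset_left (M.K_sub_e _) hρ hσ (by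
    rintro y ⟨-, x, hx, ζ, hζ, h⟩
    refine ⟨x, hx, ζ, hζ.1, hζ.2, ?_⟩
    rw [mul_assoc, show x * ζ = _ from h, mul_inv_cancel_left])
  refine (measure_mono fun y hy => ?_).trans (h2.trans ?_)
  · exact ⟨hY hy, hnf φ hφ.2 c hc h1 T hT J₀ J hJ₀ hJ P σ r₀ hσ hr₀ hP1 hP2 N m _ (hR y hy)⟩
  have h3 : 0 ≤ C₁ * (σ + T / J₀ + L₁ + Real.log (1 + n)) := by positivity
  have h4 : 0 ≤ Cv * (σ + L₂) := by positivity
  have h5 : M.K r₂ * M.K (fun _ => Cv * (σ + L₂)) ⊆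
      M.K (fun i => r₂ i + Cv * (σ + L₂) + Real.log (Ck * (1 + 2))) := by
    rintro _ ⟨x, hx, y, hy, rfl⟩
    have := hprod (fun i => r₂ i + Cv * (σ + L₂)) [x, y] (by
      simp only [List.mem_cons, List.not_mem_nil, or_false]
      rintro z (rfl | rfl)
      · exact M.K_mono (fun i _ => by linarith) hx
      · exact M.K_mono (fun i _ => by simp only [hr₂]; linarith [hr0 i]) hy)
    simpa using this
  have h6 := M.Phi_le_add (r := r₀) (r' := fun i => r₂ i + Cv * (σ + L₂) + Real.log (Ck * (1 + 2)))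
    (t := C₁ * (σ + T / J₀ + L₁ + Real.log (1 + n)) + Cv * (σ + L₂) + Real.log (Ck * (1 + 2)))
    (add_nonneg (add_nonneg h3 h4) g2) fun i _ => by simp only [hr₂]; linarith
  have h7 := (hvol fun i => r₂ i + Cv * (σ + L₂) + Real.log (Ck * (1 + 2))).2
  have h8 := (ENNReal.ofReal_toReal ((M.K_isLB fun i => r₂ i + Cv * (σ + L₂) +
    Real.log (Ck * (1 + 2))).compact.measure_lt_top (μ := subMu M.e)).ne).symm.trans_le
    (ENNReal.ofReal_le_ofReal h7)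
  refine (mul_le_mul_right ((measure_mono h5).trans h8) _).trans ?_
  rw [← ENNReal.ofReal_mul (Real.exp_pos _).le]
  refine ENNReal.ofReal_le_ofReal ?_
  rw [← Real.exp_log (show 0 < CK by linarith), ← Real.exp_add, ← Real.exp_add, Real.exp_le_exp]
  exact starget_num hC₁ hCv hd hσ hTJ hn0 g1 g2 g3 hl4 hl1 hl2 hb h6

end Vale.Agent.P188.Geo
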